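import Vale.Agent.Lib.P042.UB.Circle.ArcsInt
import Vale.Agent.Lib.P042.UB.Major
import Vale.Agent.Lib.P042.UB.Approx
import Vale.Agent.Lib.P042.UB.CSumWt

set_option autoImplicit false

namespace Vale.Agent.P042.UB

open Polynomial

namespace ArcsLower

theorem one_le_B {k : ℕ} (F : AuxFamily k) : 1 ≤ F.B := by
  have h1 := F.coeff_pos 1 one_pos k le_rfl
  have h2 := F.lead_le 1 one_pos
  by_contra h
  push Not at h
  have h3 : F.B = 0 := by omega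
  rw [h3] at h2
  simp at h2
  omega

theorem one_le_Δ {k : ℕ} (F : AuxFamily k) : 1 ≤ F.Δ :=
  F.content 1 one_pos 1 (fun _ _ => by simp)

theorem eval_eq {k : ℕ} (F : AuxFamily k) {d : ℕ} (hd : 0 < d) (n : ℤ) :
    (F.H d).eval n = ∑ j ∈ Finset.range (k + 1), (F.H d).coeff j * n ^ j := by
  rw [eval_eq_sum_range, F.natDegree_H d hd]

theorem eval_lower {k : ℕ} (F : AuxFamily k) {d : ℕ} (hd : 0 < d) {n : ℤ} (hn : 0 ≤ n) :
    (F.H d).coeff k * n ^ k ≤ (F.H d).eval n := by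
  rw [eval_eq F hd]
  refine Finset.single_le_sum (f := fun j => (F.H d).coeff j * n ^ j) (fun j hj => ?_)
    (Finset.mem_range.2 (Nat.lt_succ_self k))
  exact mul_nonneg (F.coeff_pos d hd j (Nat.lt_succ_iff.1 (Finset.mem_range.1 hj))).le
    (pow_nonneg hn j)

theorem eval_upper {k : ℕ} (F : AuxFamily k) {d : ℕ} (hd : 0 < d) {n : ℤ} (hn : 1 ≤ n) :
    (F.H d).eval n ≤ ((k : ℤ) + 1) * ((F.B : ℤ) * (F.H d).coeff k) * n ^ k := by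
  rw [eval_eq F hd]
  have h1 : ∀ j ∈ Finset.range (k + 1), (F.H d).coeff j * n ^ j ≤
      ((F.B : ℤ) * (F.H d).coeff k) * n ^ k := by
    intro j hj
    have hj' := Nat.lt_succ_iff.1 (Finset.mem_range.1 hj)
    exact mul_le_mul (F.coeff_le d hd j hj') (pow_le_pow_right₀ hn hj')
      (pow_nonneg (by omega) j)
      (mul_nonneg (by positivity) (F.coeff_pos d hd k le_rfl).le)
  refine (Finset.sum_le_sum h1).trans (le_of_eq ?_)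
  rw [Finset.sum_const, Finset.card_range]
  push_cast
  simp only [nsmul_eq_mul]
  push_cast
  ring

theorem continuous_norm_wSum (g : ℤ[X]) (M : ℕ) : Continuous fun θ => ‖wSum g M θ‖ := by
  unfold wSum
  have := continuous_e
  fun_prop

theorem nat_le_pow {w : ℝ} (hw : 2 ≤ w) (a : ℕ) : (a : ℝ) ≤ w ^ a := by
  have h1 : (a : ℝ) ≤ 2 ^ a := by exact_mod_cast (Nat.lt_two_pow_self).le
  exact h1.trans (pow_le_pow_left₀ (by norm_num) hw a)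

theorem exists_M (g : ℤ[X]) (k : ℕ) (hk : 1 ≤ k) (X : ℝ)
    (hlo : ∀ n : ℕ, (n : ℝ) ^ k ≤ ((g.eval (n : ℤ) : ℤ) : ℝ))
    (h1 : ((g.eval ((1 : ℕ) : ℤ) : ℤ) : ℝ) ≤ X) :
    ∃ M : ℕ, 1 ≤ M ∧ ((g.eval (M : ℤ) : ℤ) : ℝ) ≤ X ∧
      X < ((g.eval ((M + 1 : ℕ) : ℤ) : ℤ) : ℝ) := by
  classical
  have hex : ∃ n : ℕ, X < ((g.eval ((n + 2 : ℕ) : ℤ) : ℤ) : ℝ) := by
    obtain ⟨n, hn⟩ := exists_nat_gt X
    refine ⟨n, ?_⟩
    have h2 := hlo (n + 2)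
    have h3 : ((n + 2 : ℕ) : ℝ) ≤ ((n + 2 : ℕ) : ℝ) ^ k := by
      have h4 : (1 : ℝ) ≤ ((n + 2 : ℕ) : ℝ) := by
        push_cast
        linarith [(Nat.cast_nonneg n : (0 : ℝ) ≤ n)]
      calc ((n + 2 : ℕ) : ℝ) = ((n + 2 : ℕ) : ℝ) ^ 1 := (pow_one _).symm
        _ ≤ _ := pow_le_pow_right₀ h4 hk
    have h5 : (n : ℝ) ≤ ((n + 2 : ℕ) : ℝ) := by
      push_cast
      linarith
    linarith
  obtain ⟨n, hspec, hmin⟩ : ∃ n : ℕ, X < ((g.eval ((n + 2 : ℕ) : ℤ) : ℤ) : ℝ) ∧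
      ∀ m : ℕ, m < n → ¬ X < ((g.eval ((m + 2 : ℕ) : ℤ) : ℤ) : ℝ) :=
    ⟨Nat.find hex, Nat.find_spec hex, fun m hm => Nat.find_min hex hm⟩
  refine ⟨n + 1, by omega, ?_, hspec⟩
  rcases Nat.eq_zero_or_pos n with h0 | h0
  · subst h0
    exact h1
  · obtain ⟨l, rfl⟩ : ∃ l, n = l + 1 := ⟨n - 1, by omega⟩
    exact not_lt.1 (hmin l (by omega))

theorem size_M {k B CN E M : ℕ} (hk : 1 ≤ k) (u ck X d : ℝ) (hu2 : 2 ≤ u) (hd0 : 0 ≤ d)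
    (hdu : d ≤ u) (hck1 : 1 ≤ ck) (hckB : ck ≤ (B : ℝ) * d ^ k)
    (hCN : CN = 3 * k + 2 * B + 5 + k * E) (hX : u ^ (CN - 1) ≤ X)
    (hMlow : X < 8 * (((k : ℝ) + 1) * (B : ℝ) * 2 ^ k) * (ck * (M : ℝ) ^ k)) :
    u ^ E < (M : ℝ) := by
  have hu1 : (1 : ℝ) ≤ u := by linarith
  have hu0 : 0 < u := by linarith
  have hB0 : (0 : ℝ) ≤ B := Nat.cast_nonneg _
  have hM0 : (0 : ℝ) ≤ M := Nat.cast_nonneg _
  have hBu : (B : ℝ) ≤ u ^ B := nat_le_pow hu2 _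
  have hku : ((k : ℝ) + 1) ≤ u ^ (k + 1) := by
    have := nat_le_pow hu2 (k + 1)
    push_cast at this
    exact this
  have e1 : (8 : ℝ) ≤ u ^ 3 := by
    calc (8 : ℝ) = 2 ^ 3 := by norm_num
      _ ≤ u ^ 3 := pow_le_pow_left₀ (by norm_num) hu2 3
  have e2 : ((k : ℝ) + 1) * (B : ℝ) * 2 ^ k ≤ u ^ (k + 1) * u ^ B * u ^ k :=
    mul_le_mul (mul_le_mul hku hBu hB0 (by positivity))
      (pow_le_pow_left₀ (by norm_num) hu2 k) (by positivity) (by positivity)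
  have e3 : ck ≤ u ^ B * u ^ k := by
    refine hckB.trans ?_
    exact mul_le_mul hBu (pow_le_pow_left₀ hd0 hdu k) (by positivity) (by positivity)
  have e4 : 8 * (((k : ℝ) + 1) * (B : ℝ) * 2 ^ k) * ck ≤
      u ^ 3 * (u ^ (k + 1) * u ^ B * u ^ k) * (u ^ B * u ^ k) :=
    mul_le_mul (mul_le_mul e1 e2 (by positivity) (by positivity)) e3 (by linarith)
      (by positivity)
  have e5 : u ^ 3 * (u ^ (k + 1) * u ^ B * u ^ k) * (u ^ B * u ^ k) =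
      u ^ (3 * k + 2 * B + 4) := by
    ring
  rw [e5] at e4
  have h1 : 8 * (((k : ℝ) + 1) * (B : ℝ) * 2 ^ k) * (ck * (M : ℝ) ^ k) ≤
      u ^ (3 * k + 2 * B + 4) * (M : ℝ) ^ k := by
    calc 8 * (((k : ℝ) + 1) * (B : ℝ) * 2 ^ k) * (ck * (M : ℝ) ^ k)
        = 8 * (((k : ℝ) + 1) * (B : ℝ) * 2 ^ k) * ck * (M : ℝ) ^ k := by ring
      _ ≤ _ := mul_le_mul_of_nonneg_right e4 (by positivity)
  have h2 : u ^ (CN - 1) < u ^ (3 * k + 2 * B + 4) * (M : ℝ) ^ k :=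
    lt_of_le_of_lt hX (lt_of_lt_of_le hMlow h1)
  have h3 : u ^ (CN - 1) = u ^ (3 * k + 2 * B + 4) * (u ^ E) ^ k := by
    have h4 : CN - 1 = 3 * k + 2 * B + 4 + E * k := by
      rw [hCN, mul_comm E k]
      omega
    rw [h4, pow_add, pow_mul]
  rw [h3] at h2
  have h4 : (u ^ E) ^ k < (M : ℝ) ^ k := lt_of_mul_lt_mul_left h2 (pow_pos hu0 _).le
  exact lt_of_pow_lt_pow_left₀ k hM0 h4

theorem size_one {k B CN : ℕ} (u ck X d : ℝ) (hu2 : 2 ≤ u) (hd0 : 0 ≤ d)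
    (hdu : d ≤ u) (hck1 : 1 ≤ ck) (hckB : ck ≤ (B : ℝ) * d ^ k)
    (hCN : 3 * k + 2 * B + 5 ≤ CN) (hX : u ^ (CN - 1) ≤ X) :
    ((k : ℝ) + 1) * ((B : ℝ) * ck) ≤ X / 8 := by
  have hu1 : (1 : ℝ) ≤ u := by linarith
  have hu0 : 0 < u := by linarith
  have hB0 : (0 : ℝ) ≤ B := Nat.cast_nonneg _
  have hBu : (B : ℝ) ≤ u ^ B := nat_le_pow hu2 _
  have hku : ((k : ℝ) + 1) ≤ u ^ (k + 1) := by
    have := nat_le_pow hu2 (k + 1)
    push_cast at this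
    exact this
  have e1 : ((k : ℝ) + 1) * ((B : ℝ) * ck) ≤
      u ^ (k + 1) * (u ^ B * (u ^ B * u ^ k)) := by
    refine mul_le_mul hku ?_ (by positivity) (by positivity)
    refine mul_le_mul hBu ?_ (by linarith) (by positivity)
    refine hckB.trans ?_
    exact mul_le_mul hBu (pow_le_pow_left₀ hd0 hdu k) (by positivity) (by positivity)
  have e2 : u ^ (k + 1) * (u ^ B * (u ^ B * u ^ k)) = u ^ (2 * k + 2 * B + 1) := by ring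
  have e3 : (8 : ℝ) ≤ u ^ 3 := by
    calc (8 : ℝ) = 2 ^ 3 := by norm_num
      _ ≤ u ^ 3 := pow_le_pow_left₀ (by norm_num) hu2 3
  rw [le_div_iff₀ (by norm_num)]
  calc ((k : ℝ) + 1) * ((B : ℝ) * ck) * 8 ≤ u ^ (2 * k + 2 * B + 1) * u ^ 3 :=
        mul_le_mul (e1.trans (le_of_eq e2)) e3 (by norm_num) (by positivity)
    _ = u ^ (2 * k + 2 * B + 4) := by ring
    _ ≤ u ^ (CN - 1) := pow_le_pow_right₀ hu1 (by omega)
    _ ≤ X := hX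

theorem size_KM {CK E : ℕ} (w u K M : ℝ) (hw2 : 2 ≤ w) (hwu : w ≤ u) (hK : K = w ^ CK)
    (hE : 4 * CK + 8 ≤ E) (hM : u ^ E < M) : 128 * K ^ 4 * w ≤ M := by
  have hw0 : 0 < w := by linarith
  have hu1 : 1 ≤ u := by linarith
  have e1 : (128 : ℝ) ≤ w ^ 7 := by
    calc (128 : ℝ) = 2 ^ 7 := by norm_num
      _ ≤ w ^ 7 := pow_le_pow_left₀ (by norm_num) hw2 7
  have e2 : 128 * K ^ 4 * w ≤ w ^ 7 * (w ^ CK) ^ 4 * w := by
    rw [hK]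
    exact mul_le_mul_of_nonneg_right (mul_le_mul_of_nonneg_right e1 (by positivity)) hw0.le
  have e3 : w ^ 7 * (w ^ CK) ^ 4 * w = w ^ (4 * CK + 8) := by ring
  calc 128 * K ^ 4 * w ≤ w ^ (4 * CK + 8) := e2.trans (le_of_eq e3)
    _ ≤ u ^ (4 * CK + 8) := pow_le_pow_left₀ hw0.le hwu _
    _ ≤ u ^ E := pow_le_pow_right₀ hu1 hE
    _ ≤ M := hM.le

theorem size_KN {CK CN : ℕ} (w u K N : ℝ) (hw2 : 2 ≤ w) (hwu : w ≤ u) (hK : K = w ^ CK)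
    (hCN : 3 * CK + 1 < CN) (hN : u ^ CN ≤ N) : 2 * K ^ 3 < N := by
  have hw0 : 0 < w := by linarith
  have hu1 : 1 < u := by linarith
  have hu0 : 0 < u := by linarith
  have e1 : 2 * K ^ 3 ≤ u ^ (3 * CK + 1) := by
    calc 2 * K ^ 3 ≤ u * (u ^ CK) ^ 3 := by
          rw [hK]
          refine mul_le_mul (by linarith) ?_ (by positivity) hu0.le
          exact pow_le_pow_left₀ (by positivity) (pow_le_pow_left₀ hw0.le hwu _) 3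
      _ = u ^ (3 * CK + 1) := by ring
  have e2 : u ^ (3 * CK + 1) < u ^ CN := pow_lt_pow_right₀ hu1 hCN
  linarith

theorem size_delta (Cm : ℕ) (w α : ℝ) (hw2 : 2 ≤ w) (hα : 0 < α) (hαinv : 1 / α ≤ w) :
    (1 / (α / 8)) ^ Cm ≤ w ^ (4 * Cm) := by
  have hw0 : 0 < w := by linarith
  have e1 : (8 : ℝ) ≤ w ^ 3 := by
    calc (8 : ℝ) = 2 ^ 3 := by norm_num
      _ ≤ w ^ 3 := pow_le_pow_left₀ (by norm_num) hw2 3
  have hδw : 1 / (α / 8) ≤ w ^ 4 := by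
    calc 1 / (α / 8) = 8 * (1 / α) := by field_simp
      _ ≤ w ^ 3 * w := mul_le_mul e1 hαinv (by positivity) (by positivity)
      _ = w ^ 4 := by ring
  rw [pow_mul]
  exact pow_le_pow_left₀ (by positivity) hδw Cm

/-- The radius bound: `D/(ck M^k) ≤ K/N` with `D = (1/δ)^Cm`. -/
theorem size_rad {k B Cm CK M : ℕ} (w K N ck α D : ℝ) (hw2 : 2 ≤ w) (hK : K = w ^ CK)
    (hα : 0 < α) (hαinv : 1 / α ≤ w) (hN : 0 < N) (hck : 1 ≤ ck) (hM : 1 ≤ M)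
    (hD0 : 0 ≤ D) (hD : D ≤ w ^ (4 * Cm)) (hCK : 4 * Cm + 2 * k + B + 5 ≤ CK)
    (hMlow : α * N ≤ 8 * (((k : ℝ) + 1) * (B : ℝ) * 2 ^ k) * (ck * (M : ℝ) ^ k)) :
    D / (ck * (M : ℝ) ^ k) ≤ K / N := by
  have hw0 : 0 < w := by linarith
  have hw1 : 1 ≤ w := by linarith
  have hM0 : (0 : ℝ) < M := by
    have : 0 < M := by omega
    exact_mod_cast this
  have hck0 : 0 < ck := by linarith
  have hpos1 : 0 < ck * (M : ℝ) ^ k := by positivity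
  have hB0 : (0 : ℝ) ≤ B := Nat.cast_nonneg _
  have hBw : (B : ℝ) ≤ w ^ B := nat_le_pow hw2 _
  have hkw : ((k : ℝ) + 1) ≤ w ^ (k + 1) := by
    have := nat_le_pow hw2 (k + 1)
    push_cast at this
    exact this
  rw [div_le_div_iff₀ hpos1 hN]
  have e1 : N ≤ w * (8 * (((k : ℝ) + 1) * (B : ℝ) * 2 ^ k) * (ck * (M : ℝ) ^ k)) := by
    calc N = (1 / α) * (α * N) := by field_simp
      _ ≤ w * (8 * (((k : ℝ) + 1) * (B : ℝ) * 2 ^ k) * (ck * (M : ℝ) ^ k)) :=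
        mul_le_mul hαinv hMlow (by positivity) hw0.le
  have e2 : (8 : ℝ) ≤ w ^ 3 := by
    calc (8 : ℝ) = 2 ^ 3 := by norm_num
      _ ≤ w ^ 3 := pow_le_pow_left₀ (by norm_num) hw2 3
  have e3 : ((k : ℝ) + 1) * (B : ℝ) * 2 ^ k ≤ w ^ (k + 1) * w ^ B * w ^ k :=
    mul_le_mul (mul_le_mul hkw hBw hB0 (by positivity))
      (pow_le_pow_left₀ (by norm_num) hw2 k) (by positivity) (by positivity)
  have e4 : D * (w * (8 * (((k : ℝ) + 1) * (B : ℝ) * 2 ^ k))) ≤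
      w ^ (4 * Cm) * (w * (w ^ 3 * (w ^ (k + 1) * w ^ B * w ^ k))) := by
    refine mul_le_mul hD ?_ (by positivity) (by positivity)
    refine mul_le_mul_of_nonneg_left ?_ hw0.le
    exact mul_le_mul e2 e3 (by positivity) (by positivity)
  have e5 : w ^ (4 * Cm) * (w * (w ^ 3 * (w ^ (k + 1) * w ^ B * w ^ k))) =
      w ^ (4 * Cm + 2 * k + B + 5) := by
    ring
  have e6 : D * (w * (8 * (((k : ℝ) + 1) * (B : ℝ) * 2 ^ k))) ≤ K := by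
    rw [hK]
    refine (e4.trans (le_of_eq e5)).trans ?_
    exact pow_le_pow_right₀ hw1 hCK
  calc D * N ≤ D * (w * (8 * (((k : ℝ) + 1) * (B : ℝ) * 2 ^ k) * (ck * (M : ℝ) ^ k))) :=
        mul_le_mul_of_nonneg_left e1 hD0
    _ = D * (w * (8 * (((k : ℝ) + 1) * (B : ℝ) * 2 ^ k))) * (ck * (M : ℝ) ^ k) := by ring
    _ ≤ K * (ck * (M : ℝ) ^ k) := mul_le_mul_of_nonneg_right e6 hpos1.le

theorem size_coef {k B Cm E : ℕ} (w u d M D : ℝ) (hw2 : 2 ≤ w) (hwu : w ≤ u) (hd0 : 0 ≤ d)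
    (hdu : d ≤ u) (hD0 : 0 ≤ D) (hD : D ≤ w ^ (4 * Cm)) (hE : 2 * B + k + 4 * Cm ≤ E)
    (hM : u ^ E < M) : (B : ℝ) ^ 2 * d ^ k * D ≤ M := by
  have hw0 : 0 < w := by linarith
  have hu2 : 2 ≤ u := by linarith
  have hu1 : 1 ≤ u := by linarith
  have hu0 : 0 < u := by linarith
  have hB0 : (0 : ℝ) ≤ B := Nat.cast_nonneg _
  have hBu : (B : ℝ) ≤ u ^ B := nat_le_pow hu2 _
  have e1 : (B : ℝ) ^ 2 * d ^ k * D ≤ (u ^ B) ^ 2 * u ^ k * u ^ (4 * Cm) :=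
    mul_le_mul (mul_le_mul (pow_le_pow_left₀ hB0 hBu 2)
      (pow_le_pow_left₀ hd0 hdu k) (by positivity) (by positivity))
      (hD.trans (pow_le_pow_left₀ hw0.le hwu _)) hD0 (by positivity)
  have e2 : (u ^ B) ^ 2 * u ^ k * u ^ (4 * Cm) = u ^ (2 * B + k + 4 * Cm) := by ring
  calc (B : ℝ) ^ 2 * d ^ k * D ≤ u ^ (2 * B + k + 4 * Cm) := e1.trans (le_of_eq e2)
    _ ≤ u ^ E := pow_le_pow_right₀ hu1 hE
    _ ≤ M := hM.le

/-- The pointwise bound on a major arc. -/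
theorem point_bound (C c : ℝ) (g : ℤ[X]) (hev_nonneg : ∀ j : ℕ, 0 ≤ g.coeff j) (M q : ℕ) (a : ℤ)
    (θ : ℝ) (K N : ℝ) (hM1 : 1 ≤ M) (hq1 : 1 ≤ q) (hK1 : 1 ≤ K) (hN : 0 < N)
    (hqK : (q : ℝ) ≤ K) (hrad : |θ - (a : ℝ) / q| ≤ K / N)
    (hg0 : (0 : ℝ) ≤ ((g.eval (M : ℤ) : ℤ) : ℝ))
    (hgN : ((g.eval (M : ℤ) : ℤ) : ℝ) ≤ N / 8) (hcs : ‖cSum g a q‖ ≤ wt C c q) :
    ‖wSum g M θ‖ ≤ wt C c q + 8 * K ^ 2 / M := by
  have hM0 : (0 : ℝ) < M := by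
    have : 0 < M := by omega
    exact_mod_cast this
  have hK0 : 0 < K := by linarith
  have happ := wSum_approx g hev_nonneg M q a (θ - (a : ℝ) / q) hM1 hq1
  rw [add_sub_cancel] at happ
  have e1 : 2 * Real.pi * |θ - (a : ℝ) / q| * q * ((g.eval (M : ℤ) : ℤ) : ℝ) / M ≤
      K ^ 2 / M := by
    refine div_le_div_of_nonneg_right ?_ hM0.le
    have hpi : 2 * Real.pi ≤ 8 := by
      have := Real.pi_lt_four
      linarith
    calc 2 * Real.pi * |θ - (a : ℝ) / q| * q * ((g.eval (M : ℤ) : ℤ) : ℝ)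
        ≤ 8 * (K / N) * K * (N / 8) := by
          refine mul_le_mul (mul_le_mul (mul_le_mul hpi hrad (abs_nonneg _) (by norm_num))
            hqK (by positivity) (by positivity)) hgN hg0 (by positivity)
      _ = K ^ 2 := by
          field_simp
  have e2 : (q : ℝ) / M ≤ K ^ 2 / M := by
    refine div_le_div_of_nonneg_right (hqK.trans ?_) hM0.le
    calc K = K ^ 1 := (pow_one _).symm
      _ ≤ K ^ 2 := pow_le_pow_right₀ hK1 (by norm_num)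
  have e3 : 8 * K ^ 2 / M = 8 * (K ^ 2 / M) := by ring
  have e4 : 0 ≤ K ^ 2 / M := by positivity
  rw [e3]
  linarith

/-- Everything after the choice of `M`. -/
theorem assemble {k Cm CK E d M K : ℕ} (hk : 1 ≤ k) (F : AuxFamily k) (C c : ℝ) (hC : 1 ≤ C)
    (hwt : ∀ (d q : ℕ) (a : ℤ), 0 < d → 0 < q → IsCoprime a (q : ℤ) →
      ‖cSum (F.H d) a q‖ ≤ wt C c q)
    (hmaj : ∀ (g : ℤ[X]) (Δ B : ℕ),
      g.natDegree ≤ k → 0 < g.coeff k → (∀ j : ℕ, j ≤ k → |g.coeff j| ≤ (B : ℤ)) →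
      (∀ t : ℕ, (∀ j : ℕ, 1 ≤ j → (t : ℤ) ∣ g.coeff j) → t ≤ Δ) →
      ∀ (M : ℕ) (δ θ : ℝ), 0 < δ → δ ≤ 1 / 2 → 1 ≤ M → (B : ℝ) * (1 / δ) ^ Cm ≤ (M : ℝ) →
        δ ≤ ‖wSum g M θ‖ →
        ∃ (q : ℕ) (a : ℤ), 1 ≤ q ∧ IsCoprime a (q : ℤ) ∧
          (q : ℝ) ≤ (Δ : ℝ) * (1 / δ) ^ Cm ∧
          |θ - (a : ℝ) / q| ≤ (1 / δ) ^ Cm / ((g.coeff k : ℝ) * (M : ℝ) ^ k))
    (hd : 0 < d) (w u α N : ℝ) (hw2 : 2 ≤ w) (hwu : w ≤ u) (hdu : (d : ℝ) ≤ u)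
    (hα : 0 < α) (hα1 : α ≤ 1) (hαinv : 1 / α ≤ w) (hN : 0 < N)
    (hKw : (K : ℝ) = w ^ CK) (hM1 : 1 ≤ M)
    (hCK1 : 4 * Cm + 2 * k + F.B + 5 ≤ CK) (hCK2 : F.Δ + 4 * Cm ≤ CK)
    (hE : 2 * F.B + k + 4 * Cm ≤ E) (hME : u ^ E < (M : ℝ))
    (hMP : (((F.H d).eval (M : ℤ) : ℤ) : ℝ) ≤ α * N / 8)
    (hMlow : α * N ≤ 8 * (((k : ℝ) + 1) * (F.B : ℝ) * 2 ^ k) *
      ((((F.H d).coeff k : ℤ) : ℝ) * (M : ℝ) ^ k)) (θ : ℝ) :
    ‖wSum (F.H d) M θ‖ ≤ α / 8 ∨ ∃ (q : ℕ) (a : ℤ), 1 ≤ q ∧ q ≤ K ∧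
      IsCoprime a (q : ℤ) ∧ |θ - (a : ℝ) / q| ≤ (K : ℝ) / N ∧
      ‖wSum (F.H d) M θ‖ ≤ wt C c q + 8 * (K : ℝ) ^ 2 / M := by
  by_cases hθ : ‖wSum (F.H d) M θ‖ ≤ α / 8
  · exact Or.inl hθ
  right
  push Not at hθ
  have hw1 : 1 ≤ w := by linarith
  have hckpos : 0 < (F.H d).coeff k := F.coeff_pos d hd k le_rfl
  have hck1 : (1 : ℝ) ≤ (((F.H d).coeff k : ℤ) : ℝ) := by exact_mod_cast hckpos
  have hδC := size_delta Cm w α hw2 hα hαinv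
  have hδ0 : 0 < α / 8 := by positivity
  have hD0 : (0 : ℝ) ≤ (1 / (α / 8)) ^ Cm := by positivity
  have hev_nonneg : ∀ j : ℕ, 0 ≤ (F.H d).coeff j := by
    intro j
    by_cases hj : j ≤ k
    · exact (F.coeff_pos d hd j hj).le
    · rw [coeff_eq_zero_of_natDegree_lt (by rw [F.natDegree_H d hd]; omega)]
  have hcoefB : ∀ j : ℕ, j ≤ k → |(F.H d).coeff j| ≤ ((F.B ^ 2 * d ^ k : ℕ) : ℤ) := by
    intro j hj
    rw [abs_of_nonneg (hev_nonneg j)]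
    have e1 := F.coeff_le d hd j hj
    have e2 := F.lead_le d hd
    push_cast
    calc (F.H d).coeff j ≤ (F.B : ℤ) * (F.H d).coeff k := e1
      _ ≤ (F.B : ℤ) * ((F.B : ℤ) * (d : ℤ) ^ k) :=
        mul_le_mul_of_nonneg_left e2 (by positivity)
      _ = (F.B : ℤ) ^ 2 * (d : ℤ) ^ k := by ring
  have hcoefM : ((F.B ^ 2 * d ^ k : ℕ) : ℝ) * (1 / (α / 8)) ^ Cm ≤ (M : ℝ) := by
    push_cast
    exact size_coef w u d M _ hw2 hwu (Nat.cast_nonneg _) hdu hD0 hδC hE hME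
  obtain ⟨q, a, hq1, hcop, hqle, hθa⟩ := hmaj (F.H d) F.Δ (F.B ^ 2 * d ^ k)
    (by rw [F.natDegree_H d hd]) hckpos hcoefB (F.content d hd) M (α / 8) θ hδ0 (by linarith) hM1
    hcoefM hθ.le
  have hK1 : (1 : ℝ) ≤ K := by
    rw [hKw]
    exact one_le_pow₀ hw1
  have hqK : (q : ℝ) ≤ K := by
    refine hqle.trans ?_
    rw [hKw]
    calc (F.Δ : ℝ) * (1 / (α / 8)) ^ Cm ≤ w ^ F.Δ * w ^ (4 * Cm) :=
          mul_le_mul (nat_le_pow hw2 _) hδC hD0 (by positivity)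
      _ = w ^ (F.Δ + 4 * Cm) := by rw [← pow_add]
      _ ≤ w ^ CK := pow_le_pow_right₀ hw1 hCK2
  have hrad : |θ - (a : ℝ) / q| ≤ (K : ℝ) / N :=
    hθa.trans (size_rad w K N _ α _ hw2 hKw hα hαinv hN hck1 hM1 hD0 hδC hCK1 hMlow)
  refine ⟨q, a, hq1, by exact_mod_cast hqK, hcop, hrad, ?_⟩
  have hg0 : (0 : ℝ) ≤ (((F.H d).eval (M : ℤ) : ℤ) : ℝ) := by
    have h1 := eval_lower F hd (n := (M : ℤ)) (by positivity)
    have h2 : 0 ≤ (F.H d).coeff k * (M : ℤ) ^ k := by positivity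
    exact_mod_cast h2.trans h1
  have hgN : (((F.H d).eval (M : ℤ) : ℤ) : ℝ) ≤ N / 8 := by
    refine hMP.trans ?_
    have : α * N ≤ 1 * N := mul_le_mul_of_nonneg_right hα1 hN.le
    linarith
  exact point_bound C c (F.H d) hev_nonneg M q a θ K N hM1 hq1 hK1 hN hqK hrad hg0 hgN
    (hwt d q a hd (by omega) hcop)

theorem final_arith (α N K M w S T J : ℝ) (hw0 : 0 < w) (hα : 0 < α) (hN : 0 < N)
    (hK : 1 ≤ K) (hM : 0 < M) (hαw : 1 / w ≤ α) (hKM : 128 * K ^ 4 * w ≤ M)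
    (hS0 : 0 ≤ S) (hS : S ≤ α * N) (h1 : α ^ 2 * N / 2 ≤ J)
    (h2 : J ≤ (α / 8 + 8 * K ^ 2 / M * K ^ 2) * S + T) : α ^ 2 * N / 4 ≤ T := by
  have hcoef : α / 8 + 8 * K ^ 2 / M * K ^ 2 ≤ 3 * α / 16 := by
    have e1 : 8 * K ^ 2 / M * K ^ 2 ≤ α / 16 := by
      have e2 : 8 * K ^ 2 / M * K ^ 2 = 8 * K ^ 4 / M := by ring
      rw [e2, div_le_iff₀ hM]
      have e3 : 128 * K ^ 4 ≤ α * M := by
        calc 128 * K ^ 4 = (1 / w) * (128 * K ^ 4 * w) := by field_simp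
          _ ≤ α * M := mul_le_mul hαw hKM (by positivity) hα.le
      linarith
    linarith
  have hfin : (α / 8 + 8 * K ^ 2 / M * K ^ 2) * S ≤ 3 * α / 16 * (α * N) :=
    mul_le_mul hcoef hS hS0 (by positivity)
  have hpos : 0 ≤ α ^ 2 * N := by positivity
  have h3 : 3 * α / 16 * (α * N) = 3 / 16 * (α ^ 2 * N) := by ring
  rw [h3] at hfin
  linarith

end ArcsLower

open ArcsLower

/-- The circle method: a set avoiding `H d` has large weighted energy on the major arcs.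

PROOF. `g = F.H d`, coefficients `c_j` with `0 < c_j ≤ B c_k`, `c_k ≤ B d^k`. Let `M` be maximal
with `g(M) ≤ α N/8` (exists, `M ≥ 1`, as `g(1) ≤ (k+1) B² d^k` is small). Since
`α N/8 < g(M+1) ≤ (k+1) B c_k (2M)^k`: `c_k M^k ≥ α N/(8 · 2^k (k+1) B)`, and
`M^k ≥ α N / (8 · 2^k (k+1) B² d^k)`, so `M` exceeds any fixed power of `2^m d` if `CN` is large.
`circle_lower`: `α² N/2 ≤ ∫ |f^|² |wSum g M|`. If `|wSum g M θ| > α/8 =: δ ≥ 2^{-m-3}`, `major_arc`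
(with `B² d^k` as coefficient bound) gives `q ≤ Δ (1/δ)^C ≤ K`, `K = 2^{CK m}`, `a` coprime to
`q`, `|θ - a/q| ≤ (1/δ)^C/(c_k M^k) ≤ K/N =: r`; by `wSum_approx` and `hwt`
`|wSum g M θ| ≤ wt C c q + (2π (K/N) K N + K)/M ≤ wt C c q + 8 K²/M`. `arcs_integral` with
`η = α/8`, `η' = 8K²/M`, `η' K² ≤ α/16`, and `∑ f² ≤ α N`:
`α² N/2 ≤ (3/16) α² N + ∑_{q ≤ K} wt q · arcEnergy q`. (Requires `CK` large in terms of
`k, B, Δ` and the constant of `major_arc`, then `CN` large in terms of `CK`.) -/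
theorem arcs_lower {k : ℕ} (hk : 1 ≤ k) (F : AuxFamily k) (C c : ℝ) (hC : 1 ≤ C)
    (hwt : ∀ (d q : ℕ) (a : ℤ), 0 < d → 0 < q → IsCoprime a (q : ℤ) →
      ‖cSum (F.H d) a q‖ ≤ wt C c q) :
    ∃ CK CN : ℕ, 1 ≤ CK ∧ 1 ≤ CN ∧ ∀ m d N : ℕ, 1 ≤ m → 0 < d → (d * 2 ^ m) ^ CN ≤ N →
      ∀ A : Finset ℤ, A ⊆ Finset.Icc (1 : ℤ) N → ∀ α : ℝ, (1 / 2) ^ m ≤ α → α ≤ 1 →
      (A.card : ℝ) = α * N → Avoids (F.H d) A →
      α ^ 2 * N / 4 ≤ ∑ q ∈ Finset.Icc 1 (2 ^ (CK * m)),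
        wt C c q * arcEnergy N (bal N A) ((2 : ℝ) ^ (CK * m) / N) q := by
  obtain ⟨Cm, hmaj⟩ := major_arc k hk
  have hB1 := one_le_B F
  have hΔ1 := one_le_Δ F
  obtain ⟨CK, hCK⟩ : ∃ x : ℕ, x = 4 * Cm + F.Δ + 2 * k + F.B + 5 := ⟨_, rfl⟩
  obtain ⟨E, hE⟩ : ∃ x : ℕ, x = 2 * F.B + k + 4 * Cm + 4 * CK + 8 := ⟨_, rfl⟩
  obtain ⟨CN, hCN⟩ : ∃ x : ℕ, x = 3 * k + 2 * F.B + 5 + k * E := ⟨_, rfl⟩
  have hkE : E ≤ k * E := Nat.le_mul_of_pos_left E (by omega)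
  refine ⟨CK, CN, by omega, by omega, ?_⟩
  intro m d N hm hd hN A hA α hα0 hα1 hcard hav
  -- the basic sizes
  obtain ⟨w, hw⟩ : ∃ x : ℝ, x = 2 ^ m := ⟨_, rfl⟩
  have hw2 : 2 ≤ w := by
    rw [hw]
    calc (2 : ℝ) = 2 ^ 1 := by norm_num
      _ ≤ 2 ^ m := pow_le_pow_right₀ (by norm_num) hm
  have hw1 : (1 : ℝ) ≤ w := by linarith
  have hw0 : 0 < w := by linarith
  obtain ⟨u, hu⟩ : ∃ x : ℝ, x = (d : ℝ) * w := ⟨_, rfl⟩
  have hd1 : (1 : ℝ) ≤ d := by exact_mod_cast hd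
  have hwu : w ≤ u := by
    rw [hu]
    exact le_mul_of_one_le_left hw0.le hd1
  have hdu : (d : ℝ) ≤ u := by
    rw [hu]
    exact le_mul_of_one_le_right (by linarith) hw1
  have hu2 : 2 ≤ u := hw2.trans hwu
  have hu1 : (1 : ℝ) ≤ u := by linarith
  have hu0 : 0 < u := by linarith
  have hNu : u ^ CN ≤ (N : ℝ) := by
    have h1 : (((d * 2 ^ m) ^ CN : ℕ) : ℝ) ≤ (N : ℝ) := by exact_mod_cast hN
    push_cast at h1
    rw [hu, hw]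
    exact h1
  have hNpos : (0 : ℝ) < N := lt_of_lt_of_le (pow_pos hu0 _) hNu
  have hN1 : 1 ≤ N := by
    have : 0 < N := by exact_mod_cast hNpos
    omega
  have hαw : 1 / w ≤ α := by
    rw [hw, ← one_div_pow]
    exact hα0
  have hα : 0 < α := lt_of_lt_of_le (by positivity) hαw
  have hαinv : 1 / α ≤ w := by
    rw [div_le_iff₀ hα]
    rw [div_le_iff₀ hw0] at hαw
    linarith
  have hαN : u ^ (CN - 1) ≤ α * N := by
    have h1 : u ^ (CN - 1) * w ≤ N := by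
      have h2 : u ^ (CN - 1) * u = u ^ CN := by
        rw [← pow_succ]
        congr 1
        omega
      calc u ^ (CN - 1) * w ≤ u ^ (CN - 1) * u :=
            mul_le_mul_of_nonneg_left hwu (pow_nonneg hu0.le _)
        _ = u ^ CN := h2
        _ ≤ N := hNu
    calc u ^ (CN - 1) = (u ^ (CN - 1) * w) * (1 / w) := by field_simp
      _ ≤ N * α := mul_le_mul h1 hαw (by positivity) hNpos.le
      _ = α * N := mul_comm _ _
  have hckpos : 0 < (F.H d).coeff k := F.coeff_pos d hd k le_rfl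
  have hck1 : (1 : ℝ) ≤ (((F.H d).coeff k : ℤ) : ℝ) := by exact_mod_cast hckpos
  have hckB : (((F.H d).coeff k : ℤ) : ℝ) ≤ (F.B : ℝ) * (d : ℝ) ^ k := by
    exact_mod_cast F.lead_le d hd
  have hev_up : ∀ n : ℕ, 1 ≤ n → (((F.H d).eval (n : ℤ) : ℤ) : ℝ) ≤
      ((k : ℝ) + 1) * ((F.B : ℝ) * (((F.H d).coeff k : ℤ) : ℝ)) * (n : ℝ) ^ k := by
    intro n hn
    have h1 := eval_upper F hd (n := (n : ℤ)) (by exact_mod_cast hn)
    exact_mod_cast h1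
  have hev_lo : ∀ n : ℕ, (n : ℝ) ^ k ≤ (((F.H d).eval (n : ℤ) : ℤ) : ℝ) := by
    intro n
    have h1 := eval_lower F hd (n := (n : ℤ)) (by positivity)
    have h2 : (((F.H d).coeff k : ℤ) : ℝ) * (n : ℝ) ^ k ≤ (((F.H d).eval (n : ℤ) : ℤ) : ℝ) := by
      exact_mod_cast h1
    refine le_trans ?_ h2
    have h3 : (0 : ℝ) ≤ (n : ℝ) ^ k := by positivity
    exact le_mul_of_one_le_left h3 hck1
  -- the number `M`
  have hP1 : (((F.H d).eval ((1 : ℕ) : ℤ) : ℤ) : ℝ) ≤ α * N / 8 := by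
    have h1 := hev_up 1 le_rfl
    rw [Nat.cast_one (R := ℝ), one_pow, mul_one] at h1
    exact h1.trans (size_one u _ _ d hu2 (by linarith) hdu hck1 hckB (by omega) hαN)
  obtain ⟨M, hM1, hMP, hMN⟩ := exists_M (F.H d) k hk (α * N / 8) hev_lo hP1
  have hM0 : (0 : ℝ) < M := by
    have : 0 < M := by omega
    exact_mod_cast this
  have hM1' : (1 : ℝ) ≤ M := by exact_mod_cast hM1
  -- lower bounds for `M`
  have hMlow : α * N < 8 * (((k : ℝ) + 1) * (F.B : ℝ) * 2 ^ k) *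
      ((((F.H d).coeff k : ℤ) : ℝ) * (M : ℝ) ^ k) := by
    have h1 := hev_up (M + 1) (by omega)
    have h2 : ((M + 1 : ℕ) : ℝ) ^ k ≤ 2 ^ k * (M : ℝ) ^ k := by
      rw [← mul_pow]
      refine pow_le_pow_left₀ (by positivity) ?_ k
      push_cast
      linarith
    have hpos : 0 ≤ ((k : ℝ) + 1) * ((F.B : ℝ) * (((F.H d).coeff k : ℤ) : ℝ)) := by
      have h0 : (0 : ℝ) ≤ (((F.H d).coeff k : ℤ) : ℝ) := by linarith
      positivity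
    have h3 := mul_le_mul_of_nonneg_left h2 hpos
    have h4 : α * N / 8 < ((k : ℝ) + 1) * ((F.B : ℝ) * (((F.H d).coeff k : ℤ) : ℝ)) *
        (2 ^ k * (M : ℝ) ^ k) := lt_of_lt_of_le hMN (h1.trans h3)
    have h5 : 8 * (((k : ℝ) + 1) * (F.B : ℝ) * 2 ^ k) *
        ((((F.H d).coeff k : ℤ) : ℝ) * (M : ℝ) ^ k) =
        8 * (((k : ℝ) + 1) * ((F.B : ℝ) * (((F.H d).coeff k : ℤ) : ℝ)) *
        (2 ^ k * (M : ℝ) ^ k)) := by ring
    rw [h5]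
    linarith
  have hME : u ^ E < (M : ℝ) :=
    size_M hk u _ _ d hu2 (by linarith) hdu hck1 hckB hCN hαN hMlow
  -- the parameters
  obtain ⟨K, hK⟩ : ∃ x : ℕ, x = 2 ^ (CK * m) := ⟨_, rfl⟩
  have hKw : (K : ℝ) = w ^ CK := by
    rw [hK, hw]
    push_cast
    rw [← pow_mul, mul_comm]
  have hKcast : (2 : ℝ) ^ (CK * m) = (K : ℝ) := by
    rw [hK]
    push_cast
    rfl
  rw [hKcast, ← hK]
  have hK1 : (1 : ℝ) ≤ K := by
    rw [hKw]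
    exact one_le_pow₀ hw1
  have hK0 : (0 : ℝ) < K := by linarith
  have hKM : 128 * (K : ℝ) ^ 4 * w ≤ M := size_KM w u K M hw2 hwu hKw (by omega) hME
  have hKN : 2 * (K : ℝ) ^ 3 < N := size_KN w u K N hw2 hwu hKw (by omega) hNu
  -- the lower bound from counting
  have hlow := circle_lower N hN1 A hA α hα hcard (F.H d)
    (by rw [F.natDegree_H d hd]; exact hk)
    (by rw [F.natDegree_H d hd]; exact fun j hj => F.coeff_pos d hd j hj) M hM1 hMP hav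
  -- arcs
  have hrad1 : 2 * ((K : ℝ) / N) ≤ 1 := by
    rw [← mul_div_assoc, div_le_one hNpos]
    have : (K : ℝ) ≤ (K : ℝ) ^ 3 := by
      calc (K : ℝ) = (K : ℝ) ^ 1 := (pow_one _).symm
        _ ≤ (K : ℝ) ^ 3 := pow_le_pow_right₀ hK1 (by norm_num)
    linarith
  have hrad2 : 2 * ((K : ℝ) / N) * (K : ℝ) ^ 2 < 1 := by
    have e1 : 2 * ((K : ℝ) / N) * (K : ℝ) ^ 2 = 2 * (K : ℝ) ^ 3 / N := by
      field_simp
    rw [e1, div_lt_one hNpos]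
    exact hKN
  have harc := arcs_integral N (bal N A) (fun θ => ‖wSum (F.H d) M θ‖)
    (continuous_norm_wSum (F.H d) M)
    (wt C c) (wt_nonneg C c (by linarith)) K ((K : ℝ) / N) (α / 8) (8 * (K : ℝ) ^ 2 / M)
    (by positivity) hrad1 hrad2 (by positivity) (by positivity) (fun θ => norm_nonneg _)
    (fun θ _ _ => assemble hk F C c hC hwt hmaj hd w u α N hw2 hwu hdu hα hα1 hαinv hNpos hKw
      hM1 (by omega) (by omega) (by omega) hME hMP hMlow.le θ)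
  have hsq := sum_bal_sq N hN1 A hA α hcard
  have hsum0 : 0 ≤ ∑ n ∈ Finset.Icc (1 : ℤ) N, bal N A n ^ 2 :=
    Finset.sum_nonneg fun n _ => sq_nonneg _
  exact final_arith α N K M w _ _ _ hw0 hα hNpos hK1 hM0 hαw hKM hsum0 hsq hlow harc

end Vale.Agent.P042.UB
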