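import Vale.Agent.Lib.P042.UB.Circle.Count

set_option autoImplicit false

namespace Vale.Agent.P042.UB

open Polynomial

/-- The union of the translates by integers of the interval of radius `r` around `c`. -/
def perArc (c r : ℝ) : Set ℝ := {θ | ∃ n : ℤ, |θ - c - n| ≤ r}

theorem measurableSet_perArc (c r : ℝ) : MeasurableSet (perArc c r) := by
  have h1 : perArc c r = ⋃ n : ℤ, {θ : ℝ | |θ - c - n| ≤ r} := by
    ext θ
    simp [perArc]
  rw [h1]
  refine MeasurableSet.iUnion fun n => ?_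
  exact measurableSet_le (by fun_prop) measurable_const

theorem perArc_add_one (c r θ : ℝ) : θ + 1 ∈ perArc c r ↔ θ ∈ perArc c r := by
  constructor
  · rintro ⟨n, hn⟩
    refine ⟨n - 1, ?_⟩
    push_cast
    rwa [show θ - c - (n - 1) = θ + 1 - c - n by ring]
  · rintro ⟨n, hn⟩
    refine ⟨n + 1, ?_⟩
    push_cast
    rwa [show θ + 1 - c - (n + 1) = θ - c - n by ring]

/-- The integral over a periodic arc. -/
theorem integral_perArc {F : ℝ → ℝ} (hF : Function.Periodic F 1) {c r : ℝ} (hr : 0 < r)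
    (hr1 : 2 * r ≤ 1) :
    ∫ θ in (0 : ℝ)..1, (perArc c r).indicator F θ = ∫ β in (-r)..r, F (c + β) := by
  have hper : Function.Periodic ((perArc c r).indicator F) 1 := by
    intro θ
    by_cases h : θ ∈ perArc c r
    · rw [Set.indicator_of_mem h, Set.indicator_of_mem ((perArc_add_one c r θ).2 h), hF θ]
    · rw [Set.indicator_of_notMem h,
        Set.indicator_of_notMem (fun h' => h ((perArc_add_one c r θ).1 h'))]
  have h1 := hper.intervalIntegral_add_eq 0 (c - 1 / 2)
  rw [zero_add] at h1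
  rw [h1, show c - 1 / 2 + 1 = c + 1 / 2 by ring]
  have h2 : ∫ θ in (c - 1 / 2)..(c + 1 / 2), (perArc c r).indicator F θ =
      ∫ θ in (c - 1 / 2)..(c + 1 / 2), (Set.Ioc (c - r) (c + r)).indicator F θ := by
    apply intervalIntegral.integral_congr_ae
    have e1 : ∀ᵐ x : ℝ, x ≠ c + 1 / 2 := by
      rw [MeasureTheory.ae_iff]
      simp
    have e2 : ∀ᵐ x : ℝ, x ≠ c - r := by
      rw [MeasureTheory.ae_iff]
      simp
    filter_upwards [e1, e2] with x hx1 hx2 hx
    rw [Set.uIoc_of_le (by linarith)] at hx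
    have hx3 : x < c + 1 / 2 := lt_of_le_of_ne hx.2 hx1
    by_cases hm : x ∈ Set.Ioc (c - r) (c + r)
    · rw [Set.indicator_of_mem hm, Set.indicator_of_mem]
      refine ⟨0, ?_⟩
      rw [Int.cast_zero, sub_zero, abs_le]
      constructor <;> linarith [hm.1, hm.2]
    · rw [Set.indicator_of_notMem hm, Set.indicator_of_notMem]
      rintro ⟨n, hn⟩
      apply hm
      rw [abs_le] at hn
      have hn0 : n = 0 := by
        have b1 : (n : ℝ) < 1 := by linarith [hn.1, hx.1]
        have b2 : (-1 : ℝ) < n := by linarith [hn.2, hx.1]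
        have b3 : n < 1 := by exact_mod_cast b1
        have b4 : -1 < n := by exact_mod_cast b2
        omega
      rw [hn0, Int.cast_zero, sub_zero] at hn
      refine ⟨lt_of_le_of_ne (by linarith [hn.1]) (Ne.symm hx2), by linarith [hn.2]⟩
  rw [h2, intervalIntegral.integral_of_le (by linarith),
    MeasureTheory.setIntegral_indicator measurableSet_Ioc,
    Set.inter_eq_right.2 (Set.Ioc_subset_Ioc (by linarith) (by linarith)),
    ← intervalIntegral.integral_of_le (by linarith), intervalIntegral.integral_comp_add_left]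
  rfl

theorem arcsInt_fhat_add_one (N : ℕ) (f : ℤ → ℝ) (θ : ℝ) : fhat N f (θ + 1) = fhat N f θ := by
  unfold fhat
  refine Finset.sum_congr rfl fun n _ => ?_
  congr 1
  rw [show -((n : ℝ) * (θ + 1)) = -((n : ℝ) * θ) + ((-n : ℤ) : ℝ) by push_cast; ring, e_add_int]

/-- From a pointwise description of a weight on the arcs to energies.

PROOF. (By `hr2`, an arc around `a/q` meeting `[0,1]` has `0 ≤ a ≤ q`.) Pointwise on `[0,1]`:
`|f^|² w ≤ η |f^|² + ∑_{q ≤ K} ∑_{0 ≤ a ≤ q, (a,q)=1}
1_{|θ - a/q| ≤ r} |f^|² (W q + η')`. Integrate: the arcs with `a < q` (or `q = 1`, where `a = 0`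
and `a = 1` contribute the two halves of the arc at `0`, by periodicity) give at most
`arcEnergy N f r q`; each arc integral is `≤ ∫_0^1 |f^|² = ∑ f²` as `2r ≤ 1`, so
`∑_q arcEnergy ≤ K² ∑ f²`. -/
theorem arcs_integral (N : ℕ) (f : ℤ → ℝ) (wf : ℝ → ℝ) (hwf : Continuous wf)
    (W : ℕ → ℝ) (hW : ∀ q, 0 ≤ W q) (K : ℕ) (r η η' : ℝ) (hr : 0 < r) (hr1 : 2 * r ≤ 1)
    (hr2 : 2 * r * (K : ℝ) ^ 2 < 1)
    (hη : 0 ≤ η) (hη' : 0 ≤ η') (hwf0 : ∀ θ, 0 ≤ wf θ)
    (h : ∀ θ : ℝ, 0 ≤ θ → θ ≤ 1 → wf θ ≤ η ∨ ∃ (q : ℕ) (a : ℤ), 1 ≤ q ∧ q ≤ K ∧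
      IsCoprime a (q : ℤ) ∧ |θ - (a : ℝ) / q| ≤ r ∧ wf θ ≤ W q + η') :
    ∫ θ in (0 : ℝ)..1, ‖fhat N f θ‖ ^ 2 * wf θ ≤
      (η + η' * (K : ℝ) ^ 2) * ∑ n ∈ Finset.Icc (1 : ℤ) N, f n ^ 2 +
        ∑ q ∈ Finset.Icc 1 K, W q * arcEnergy N f r q := by
  set F : ℝ → ℝ := fun θ => ‖fhat N f θ‖ ^ 2 with hF
  have hF0 : ∀ θ, 0 ≤ F θ := fun θ => sq_nonneg _
  have hFc : Continuous F := (continuous_fhat N f).norm.pow 2
  have hFp : Function.Periodic F 1 := fun θ => by
    rw [hF]
    simp only [arcsInt_fhat_add_one]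
  set S : ℝ := ∑ n ∈ Finset.Icc (1 : ℤ) N, f n ^ 2 with hS
  have hS1 : ∫ θ in (0 : ℝ)..1, F θ = S := integral_fhat_sq N f
  have hS0 : 0 ≤ S := Finset.sum_nonneg fun n _ => sq_nonneg _
  have hind : ∀ c : ℝ, IntervalIntegrable ((perArc c r).indicator F) MeasureTheory.volume 0 1 := by
    intro c
    have h1 : IntervalIntegrable F MeasureTheory.volume 0 1 := hFc.intervalIntegrable _ _
    rw [intervalIntegrable_iff] at h1 ⊢
    exact h1.indicator (measurableSet_perArc c r)
  have hind0 : ∀ c θ, 0 ≤ (perArc c r).indicator F θ := fun c θ =>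
    Set.indicator_nonneg (fun θ _ => hF0 θ) θ
  -- the pointwise bound
  have hpt : ∀ θ ∈ Set.Icc (0 : ℝ) 1, F θ * wf θ ≤ η * F θ + ∑ q ∈ Finset.Icc 1 K,
      ∑ a ∈ (Finset.range q).filter (fun a => a.Coprime q),
        (W q + η') * (perArc ((a : ℝ) / q) r).indicator F θ := by
    intro θ hθ
    have hnn : ∀ q ∈ Finset.Icc 1 K, 0 ≤ ∑ a ∈ (Finset.range q).filter (fun a => a.Coprime q),
        (W q + η') * (perArc ((a : ℝ) / q) r).indicator F θ := fun q _ =>
      Finset.sum_nonneg fun a _ => mul_nonneg (add_nonneg (hW q) hη') (hind0 _ _)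
    rcases h θ hθ.1 hθ.2 with h1 | ⟨q, a, hq1, hqK, hcop, hdist, hwq⟩
    · have h2 : F θ * wf θ ≤ η * F θ := by
        rw [mul_comm]
        exact mul_le_mul_of_nonneg_right h1 (hF0 θ)
      have h3 := Finset.sum_nonneg hnn
      linarith
    · have hq0 : (0 : ℤ) < q := by exact_mod_cast hq1
      have hqr : (0 : ℝ) < q := by exact_mod_cast hq1
      have ha' : (((a % (q : ℤ)).toNat : ℕ) : ℤ) = a % q :=
        Int.toNat_of_nonneg (Int.emod_nonneg a hq0.ne')
      set a' : ℕ := (a % (q : ℤ)).toNat with ha'def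
      have hlt : a' < q := by
        have := Int.emod_lt_of_pos a hq0
        rw [← ha'] at this
        exact_mod_cast this
      have hcop' : a'.Coprime q := by
        rw [← Nat.isCoprime_iff_coprime, ha', Int.emod_def]
        have := hcop.add_mul_left_left (-(a / (q : ℤ)))
        rwa [mul_neg, ← sub_eq_add_neg] at this
      have hmem : θ ∈ perArc ((a' : ℝ) / q) r := by
        refine ⟨a / (q : ℤ), ?_⟩
        have e1 : (a : ℝ) = (q : ℝ) * ((a / (q : ℤ) : ℤ) : ℝ) + (a' : ℝ) := by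
          have := Int.mul_ediv_add_emod a q
          rw [← ha'] at this
          exact_mod_cast this.symm
        have e2 : θ - (a' : ℝ) / q - ((a / (q : ℤ) : ℤ) : ℝ) = θ - (a : ℝ) / q := by
          rw [e1]
          field_simp
          ring
        rw [e2]
        exact hdist
      have h2 : F θ * wf θ ≤ (W q + η') * (perArc ((a' : ℝ) / q) r).indicator F θ := by
        rw [Set.indicator_of_mem hmem, mul_comm]
        exact mul_le_mul_of_nonneg_right hwq (hF0 θ)
      have h3 : (W q + η') * (perArc ((a' : ℝ) / q) r).indicator F θ ≤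
          ∑ a ∈ (Finset.range q).filter (fun a => a.Coprime q),
            (W q + η') * (perArc ((a : ℝ) / q) r).indicator F θ :=
        Finset.single_le_sum (f := fun a : ℕ =>
          (W q + η') * (perArc ((a : ℝ) / q) r).indicator F θ)
          (fun a _ => mul_nonneg (add_nonneg (hW q) hη') (hind0 _ _))
          (Finset.mem_filter.2 ⟨Finset.mem_range.2 hlt, hcop'⟩)
      have h4 := Finset.single_le_sum hnn (Finset.mem_Icc.2 ⟨hq1, hqK⟩)
      have h5 : 0 ≤ η * F θ := mul_nonneg hη (hF0 θ)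
      linarith
  have hint : ∀ q ∈ Finset.Icc 1 K, IntervalIntegrable (fun θ =>
      ∑ a ∈ (Finset.range q).filter (fun a => a.Coprime q),
        (W q + η') * (perArc ((a : ℝ) / q) r).indicator F θ) MeasureTheory.volume 0 1 := by
    intro q _
    have := IntervalIntegrable.sum (μ := MeasureTheory.volume) (a := 0) (b := 1)
      ((Finset.range q).filter (fun a => a.Coprime q))
      (f := fun (a : ℕ) θ => (W q + η') * (perArc ((a : ℝ) / q) r).indicator F θ)
      (fun a _ => (hind ((a : ℝ) / q)).const_mul _)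
    have e1 : ∀ (t : Finset ℕ) (G : ℕ → ℝ → ℝ), (∑ i ∈ t, G i) = fun θ => ∑ i ∈ t, G i θ :=
      fun t G => by
        ext θ
        rw [Finset.sum_apply]
    rw [e1] at this
    exact this
  have hint2 : IntervalIntegrable (fun θ => ∑ q ∈ Finset.Icc 1 K,
      ∑ a ∈ (Finset.range q).filter (fun a => a.Coprime q),
        (W q + η') * (perArc ((a : ℝ) / q) r).indicator F θ) MeasureTheory.volume 0 1 := by
    have := IntervalIntegrable.sum (μ := MeasureTheory.volume) (a := 0) (b := 1)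
      (Finset.Icc 1 K)
      (f := fun (q : ℕ) θ => ∑ a ∈ (Finset.range q).filter (fun a => a.Coprime q),
        (W q + η') * (perArc ((a : ℝ) / q) r).indicator F θ) hint
    have e1 : ∀ (t : Finset ℕ) (G : ℕ → ℝ → ℝ), (∑ i ∈ t, G i) = fun θ => ∑ i ∈ t, G i θ :=
      fun t G => by
        ext θ
        rw [Finset.sum_apply]
    rw [e1] at this
    exact this
  have hFi : IntervalIntegrable (fun θ => η * F θ) MeasureTheory.volume 0 1 :=
    (hFc.const_mul η).intervalIntegrable _ _
  have harc : ∀ q ∈ Finset.Icc 1 K, ∫ θ in (0 : ℝ)..1,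
      ∑ a ∈ (Finset.range q).filter (fun a => a.Coprime q),
        (W q + η') * (perArc ((a : ℝ) / q) r).indicator F θ = (W q + η') * arcEnergy N f r q := by
    intro q _
    rw [intervalIntegral.integral_finsetSum
      (f := fun (a : ℕ) θ => (W q + η') * (perArc ((a : ℝ) / q) r).indicator F θ)
      (fun a _ => (hind ((a : ℝ) / q)).const_mul _)]
    unfold arcEnergy
    rw [Finset.mul_sum]
    refine Finset.sum_congr rfl fun a _ => ?_
    rw [intervalIntegral.integral_const_mul, integral_perArc hFp hr hr1]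
  have hmain : ∫ θ in (0 : ℝ)..1, F θ * wf θ ≤ η * S +
      ∑ q ∈ Finset.Icc 1 K, (W q + η') * arcEnergy N f r q := by
    calc ∫ θ in (0 : ℝ)..1, F θ * wf θ ≤ ∫ θ in (0 : ℝ)..1, (η * F θ + ∑ q ∈ Finset.Icc 1 K,
        ∑ a ∈ (Finset.range q).filter (fun a => a.Coprime q),
        (W q + η') * (perArc ((a : ℝ) / q) r).indicator F θ) :=
          intervalIntegral.integral_mono_on zero_le_one ((hFc.mul hwf).intervalIntegrable _ _)
            (hFi.add hint2) hpt
      _ = _ := by
          rw [intervalIntegral.integral_add hFi hint2, intervalIntegral.integral_const_mul, hS1,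
            intervalIntegral.integral_finsetSum hint]
          congr 1
          exact Finset.sum_congr rfl harc
  have hbd : ∀ q ∈ Finset.Icc 1 K, arcEnergy N f r q ≤ K * S := by
    intro q hq
    have h1 : ∀ a : ℕ, ∫ β in (-r)..r, ‖fhat N f ((a : ℝ) / q + β)‖ ^ 2 ≤ S := by
      intro a
      have h2 := integral_perArc hFp (c := (a : ℝ) / q) hr hr1
      change ∫ β in (-r)..r, F ((a : ℝ) / q + β) ≤ S
      rw [← h2, ← hS1]
      refine intervalIntegral.integral_mono_on zero_le_one (hind _)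
        (hFc.intervalIntegrable _ _) fun θ _ => ?_
      exact Set.indicator_le_self' (fun θ _ => hF0 θ) θ
    unfold arcEnergy
    calc ∑ a ∈ (Finset.range q).filter (fun a => a.Coprime q),
        ∫ β in (-r)..r, ‖fhat N f ((a : ℝ) / q + β)‖ ^ 2
        ≤ ∑ _a ∈ (Finset.range q).filter (fun a => a.Coprime q), S :=
          Finset.sum_le_sum fun a _ => h1 a
      _ = (((Finset.range q).filter (fun a => a.Coprime q)).card : ℝ) * S := by
          rw [Finset.sum_const, nsmul_eq_mul]
      _ ≤ K * S := by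
          apply mul_le_mul_of_nonneg_right _ hS0
          have h3 := (Finset.card_filter_le (Finset.range q) (fun a => a.Coprime q))
          rw [Finset.card_range] at h3
          exact_mod_cast h3.trans (Finset.mem_Icc.1 hq).2
  have hsum : ∑ q ∈ Finset.Icc 1 K, arcEnergy N f r q ≤ (K : ℝ) ^ 2 * S := by
    calc ∑ q ∈ Finset.Icc 1 K, arcEnergy N f r q ≤ ∑ _q ∈ Finset.Icc 1 K, (K : ℝ) * S :=
          Finset.sum_le_sum hbd
      _ = (K : ℝ) ^ 2 * S := by
          rw [Finset.sum_const, Nat.card_Icc, nsmul_eq_mul, Nat.add_sub_cancel]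
          ring
  have hsplit : ∑ q ∈ Finset.Icc 1 K, (W q + η') * arcEnergy N f r q =
      ∑ q ∈ Finset.Icc 1 K, W q * arcEnergy N f r q +
        η' * ∑ q ∈ Finset.Icc 1 K, arcEnergy N f r q := by
    rw [Finset.mul_sum, ← Finset.sum_add_distrib]
    refine Finset.sum_congr rfl fun q _ => ?_
    ring
  have hη2 := mul_le_mul_of_nonneg_left hsum hη'
  calc ∫ θ in (0 : ℝ)..1, ‖fhat N f θ‖ ^ 2 * wf θ ≤ η * S +
      ∑ q ∈ Finset.Icc 1 K, (W q + η') * arcEnergy N f r q := hmain
    _ = η * S + (∑ q ∈ Finset.Icc 1 K, W q * arcEnergy N f r q +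
        η' * ∑ q ∈ Finset.Icc 1 K, arcEnergy N f r q) := by rw [hsplit]
    _ ≤ η * S + (∑ q ∈ Finset.Icc 1 K, W q * arcEnergy N f r q + η' * ((K : ℝ) ^ 2 * S)) := by
        linarith
    _ = (η + η' * (K : ℝ) ^ 2) * S + ∑ q ∈ Finset.Icc 1 K, W q * arcEnergy N f r q := by ring

end Vale.Agent.P042.UB
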