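import Vale.Agent.Lib.P042.UB.Fejer.Block

set_option autoImplicit false

namespace Vale.Agent.P042.UB

open Polynomial

/-- No increments along `λ`-progressions implies bounds for weighted densities on residue classes
along progressions of difference `D q`.

PROOF. `fw_block` for `g(j) = 1_A(x + D j)`, `Λ = λ(Dq)/D` (a multiple of `q`, as
`D q ∣ λ(D q)`), `B = L`, `τ = (1 + 1/1000) α`: `x + D (b' + Λ i) = (x + D b') + λ(Dq) i`, so the
hypothesis is `NoIncr` for `Dq ≤ Q`. `Λ ≤ (Dq)^k`. -/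
theorem class_bound {k : ℕ} (F : AuxFamily k) (A : Finset ℤ) (α : ℝ) (hα0 : 0 < α) (Q L : ℕ)
    (hNI : NoIncr F A α (1 / 1000) Q L) (H D q : ℕ) (hH : 2 ≤ H) (hD : 1 ≤ D) (hq : 1 ≤ q)
    (hqH : q ≤ H) (hDq : D * q ≤ Q) (hL : 1 ≤ L) (hsmall : 400000 * (D * q) ^ k * L ≤ H)
    (x b : ℤ) :
    (q : ℝ) * ∑' j : ℤ, (if (q : ℤ) ∣ j - b then
      fw H j * (if x + D * j ∈ A then 1 else 0) else 0) ≤ (1 + 1 / 800) * α := by
  have hDq1 : 0 < D * q := Nat.mul_pos hD hq
  obtain ⟨m, hm⟩ := F.dvd_lam (D * q) hDq1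
  have hlam := F.lam_pos (D * q) hDq1
  have hm1 : 1 ≤ m := by
    rcases Nat.eq_zero_or_pos m with h0 | h0
    · rw [hm, h0, mul_zero] at hlam
      exact absurd hlam (lt_irrefl 0)
    · exact h0
  have hqm : 1 ≤ q * m := Nat.mul_pos hq hm1
  have hH0 : (0 : ℝ) < H := by exact_mod_cast (by omega : 0 < H)
  have hblock := fw_block H hH (fun j => if x + D * j ∈ A then (1 : ℝ) else 0)
    (fun j => by positivity)
    (fun j => by split_ifs <;> norm_num)
    q (q * m) L hq hqH (Dvd.intro _ rfl) hqm hL ((1 + 1 / 1000) * α) (by positivity)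
    (fun b' => by
      have h := hNI (D * q) hDq1 hDq (x + D * b')
      rw [Finset.card_eq_sum_ones, Finset.sum_filter, Nat.cast_sum] at h
      refine le_trans (le_of_eq ?_) h
      refine Finset.sum_congr rfl fun i _ => ?_
      have h1 : x + D * (b' + ((q * m : ℕ) : ℤ) * i) = x + D * b' + (F.lam (D * q) : ℤ) * i := by
        rw [hm]
        push_cast
        ring
      rw [h1]
      split_ifs <;> simp) b
  refine hblock.trans ?_
  have hle : ((q * m : ℕ) : ℝ) ≤ ((D * q : ℕ) : ℝ) ^ k := by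
    have h1 : q * m ≤ F.lam (D * q) := by
      rw [hm]
      calc q * m = 1 * (q * m) := (one_mul _).symm
        _ ≤ D * (q * m) := Nat.mul_le_mul_right _ hD
        _ = D * q * m := by ring
    have h2 := F.lam_le (D * q) hDq1
    exact_mod_cast h1.trans h2
  have hsmall' : 400000 * ((D * q : ℕ) : ℝ) ^ k * L ≤ H := by exact_mod_cast hsmall
  have hfrac : 40 * ((q * m : ℕ) : ℝ) * L / H ≤ 1 / 10000 := by
    rw [div_le_iff₀ hH0]
    have h3 : ((q * m : ℕ) : ℝ) * L ≤ ((D * q : ℕ) : ℝ) ^ k * L :=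
      mul_le_mul_of_nonneg_right hle (Nat.cast_nonneg _)
    linarith
  calc (1 + 1 / 1000) * α * (1 + 40 * ((q * m : ℕ) : ℝ) * L / H)
      ≤ (1 + 1 / 1000) * α * (1 + 1 / 10000) := by
        apply mul_le_mul_of_nonneg_left _ (by positivity)
        linarith
    _ ≤ (1 + 1 / 800) * α := by nlinarith

end Vale.Agent.P042.UB
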