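import Vale.Agent.Lib.P042.UB.Fejer.Plancherel

set_option autoImplicit false

namespace Vale.Agent.P042.UB

open Polynomial

theorem bal_eq_zero (N : ℕ) (A : Finset ℤ) (hA : A ⊆ Finset.Icc (1 : ℤ) N) (x : ℤ)
    (hx : x ∉ Finset.Icc (1 : ℤ) N) : bal N A x = 0 := by
  have hxA : x ∉ A := fun h => hx (hA h)
  unfold bal
  rw [if_neg hxA, if_neg hx, sub_zero]

theorem sum_ind_eq_card (N : ℕ) (A : Finset ℤ) (hA : A ⊆ Finset.Icc (1 : ℤ) N) :
    ∑ n ∈ Finset.Icc (1 : ℤ) N, (if n ∈ A then (1 : ℝ) else 0) = A.card := by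
  rw [Finset.sum_boole]
  congr 2
  ext n
  simp only [Finset.mem_filter]
  exact ⟨fun h => h.2, fun h => ⟨hA h, h⟩⟩

/-- `∑ f² = α N - α² N ≤ α N`. -/
theorem sum_bal_sq (N : ℕ) (hN : 1 ≤ N) (A : Finset ℤ) (hA : A ⊆ Finset.Icc (1 : ℤ) N) (α : ℝ)
    (hα : (A.card : ℝ) = α * N) : ∑ n ∈ Finset.Icc (1 : ℤ) N, bal N A n ^ 2 ≤ α * N := by
  have hN0 : (N : ℝ) ≠ 0 := by
    have : 0 < N := hN
    exact_mod_cast this.ne'
  have hdiv : (A.card : ℝ) / N = α := by
    rw [hα]
    field_simp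
  have h1 : ∀ n ∈ Finset.Icc (1 : ℤ) N, bal N A n ^ 2
      = (1 - 2 * α) * (if n ∈ A then (1 : ℝ) else 0) + α ^ 2 := by
    intro n hn
    unfold bal
    rw [if_pos hn, hdiv]
    split_ifs <;> ring
  rw [Finset.sum_congr rfl h1, Finset.sum_add_distrib, ← Finset.mul_sum, sum_ind_eq_card N A hA,
    hα, Finset.sum_const, nsmul_eq_mul, Int.card_Icc]
  have hc : ((((N : ℤ) + 1 - 1).toNat : ℕ) : ℝ) = N := by simp
  rw [hc]
  have : 0 ≤ α ^ 2 * N := by positivity
  nlinarith

theorem integral_e_int (k : ℤ) :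
    ∫ θ in (0 : ℝ)..1, e ((k : ℝ) * θ) = if k = 0 then 1 else 0 := by
  by_cases hk : k = 0
  · subst hk
    simp [e_zero]
  · rw [if_neg hk]
    have hc : ((2 * Real.pi * k : ℝ) : ℂ) * Complex.I ≠ 0 := by
      apply mul_ne_zero _ Complex.I_ne_zero
      have : (2 * Real.pi * k : ℝ) ≠ 0 := by
        apply mul_ne_zero (mul_ne_zero two_ne_zero Real.pi_ne_zero)
        exact_mod_cast hk
      exact_mod_cast this
    have h1 : ∀ θ : ℝ, e ((k : ℝ) * θ)
        = Complex.exp ((((2 * Real.pi * k : ℝ) : ℂ) * Complex.I) * (θ : ℂ)) := by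
      intro θ
      unfold e
      congr 1
      push_cast
      ring
    simp_rw [h1]
    rw [integral_exp_mul_complex hc]
    have h2 : Complex.exp ((((2 * Real.pi * k : ℝ) : ℂ) * Complex.I) * ((1 : ℝ) : ℂ)) = 1 := by
      rw [Complex.exp_eq_one_iff]
      exact ⟨k, by push_cast; ring⟩
    rw [h2]
    simp

theorem continuous_wSum (g : ℤ[X]) (M : ℕ) : Continuous (wSum g M) := by
  unfold wSum
  apply Continuous.div_const
  apply continuous_finset_sum
  intro n _
  exact continuous_e.comp (by fun_prop)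

theorem fhat_sq_eq (N : ℕ) (f : ℤ → ℝ) (θ : ℝ) :
    ((‖fhat N f θ‖ ^ 2 : ℝ) : ℂ) =
      ∑ n ∈ Finset.Icc (1 : ℤ) N, ∑ m ∈ Finset.Icc (1 : ℤ) N,
        ((f n * f m : ℝ) : ℂ) * e (((m - n : ℤ) : ℝ) * θ) := by
  have h1 : ((‖fhat N f θ‖ ^ 2 : ℝ) : ℂ) = fhat N f θ * (starRingEnd ℂ) (fhat N f θ) := by
    rw [Complex.mul_conj']
    push_cast
    rfl
  rw [h1]
  unfold fhat
  rw [map_sum, Finset.sum_mul_sum]
  apply Finset.sum_congr rfl
  intro n _
  apply Finset.sum_congr rfl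
  intro m _
  rw [map_mul, Complex.conj_ofReal, ← e_neg, neg_neg]
  have : e (((m - n : ℤ) : ℝ) * θ) = e (-((n : ℝ) * θ)) * e ((m : ℝ) * θ) := by
    rw [← e_add]
    congr 1
    push_cast
    ring
  rw [this]
  push_cast
  ring

/-- Correlations through the Fourier transform:
`∑_x f(x) f(x+t) = ∫ |f^(θ)|² e(t θ) dθ` (up to the sign of `t`, the left side is even in `t`). -/
theorem correlation (N : ℕ) (f : ℤ → ℝ) (hf : ∀ x, x ∉ Finset.Icc (1 : ℤ) N → f x = 0)
    (t : ℤ) :
    ((∑ x ∈ Finset.Icc (1 : ℤ) N, f x * f (x + t) : ℝ) : ℂ) =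
      ∫ θ in (0 : ℝ)..1, ((‖fhat N f θ‖ ^ 2 : ℝ) : ℂ) * e (t * θ) := by
  have h1 : ∀ θ : ℝ, ((‖fhat N f θ‖ ^ 2 : ℝ) : ℂ) * e (t * θ)
      = ∑ n ∈ Finset.Icc (1 : ℤ) N, ∑ m ∈ Finset.Icc (1 : ℤ) N,
        ((f n * f m : ℝ) : ℂ) * e (((m - n + t : ℤ) : ℝ) * θ) := by
    intro θ
    rw [fhat_sq_eq, Finset.sum_mul]
    apply Finset.sum_congr rfl
    intro n _
    rw [Finset.sum_mul]
    apply Finset.sum_congr rfl
    intro m _
    have : e (((m - n + t : ℤ) : ℝ) * θ) = e (((m - n : ℤ) : ℝ) * θ) * e (t * θ) := by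
      rw [← e_add]
      congr 1
      push_cast
      ring
    rw [this]
    ring
  simp_rw [h1]
  have hcont : ∀ n m : ℤ, Continuous fun θ : ℝ =>
      ((f n * f m : ℝ) : ℂ) * e (((m - n + t : ℤ) : ℝ) * θ) := by
    intro n m
    apply Continuous.mul continuous_const
    exact continuous_e.comp (by fun_prop)
  rw [intervalIntegral.integral_finset_sum]
  · have h2 : ∀ n ∈ Finset.Icc (1 : ℤ) N,
        ∫ θ in (0 : ℝ)..1, ∑ m ∈ Finset.Icc (1 : ℤ) N,
          ((f n * f m : ℝ) : ℂ) * e (((m - n + t : ℤ) : ℝ) * θ)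
        = ∑ m ∈ Finset.Icc (1 : ℤ) N, if n = m + t then ((f n * f m : ℝ) : ℂ) else 0 := by
      intro n _
      rw [intervalIntegral.integral_finset_sum]
      · apply Finset.sum_congr rfl
        intro m _
        rw [intervalIntegral.integral_const_mul, integral_e_int]
        by_cases h : n = m + t
        · have h' : m - n + t = 0 := by omega
          rw [if_pos h, if_pos h', mul_one]
        · have h' : ¬ (m - n + t = 0) := by omega
          rw [if_neg h, if_neg h', mul_zero]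
      · intro m _
        exact (hcont n m).intervalIntegrable _ _
    rw [Finset.sum_congr rfl h2, Finset.sum_comm]
    push_cast
    apply Finset.sum_congr rfl
    intro m _
    by_cases hm : m + t ∈ Finset.Icc (1 : ℤ) N
    · rw [Finset.sum_ite_eq_of_mem' _ _ _ hm]
      push_cast
      ring
    · rw [Finset.sum_eq_zero]
      · rw [hf _ hm]
        simp
      · intro n hn
        rw [if_neg]
        intro h
        exact hm (h ▸ hn)
  · intro n _
    exact (continuous_finset_sum _ fun m _ => hcont n m).intervalIntegrable _ _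

/-- The correlation at a shift avoided by `A`. -/
theorem corr_le (N : ℕ) (hN : 1 ≤ N) (A : Finset ℤ) (hA : A ⊆ Finset.Icc (1 : ℤ) N)
    (α : ℝ) (hα0 : 0 < α) (hα : (A.card : ℝ) = α * N) (t : ℤ) (ht0 : 0 ≤ t)
    (ht : (t : ℝ) ≤ α * N / 8) (hav : ∀ x, x ∈ A → x + t ∉ A) :
    ∑ x ∈ Finset.Icc (1 : ℤ) N, bal N A x * bal N A (x + t) ≤ -(α ^ 2 * N / 2) := by
  have hN0 : (N : ℝ) ≠ 0 := by
    have : 0 < N := hN
    exact_mod_cast this.ne'
  have hdiv : (A.card : ℝ) / N = α := by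
    rw [hα]
    field_simp
  set I := Finset.Icc (1 : ℤ) N with hI
  have hcI : ((I.card : ℕ) : ℝ) = N := by
    rw [hI, Int.card_Icc]
    simp
  -- the two counts
  have hA1 : (A.card : ℝ) - t ≤ ∑ x ∈ I, (if x ∈ A then (1 : ℝ) else 0) *
      (if x + t ∈ I then 1 else 0) := by
    have h1 : ∑ x ∈ I, (if x ∈ A then (1 : ℝ) else 0) * (if x + t ∈ I then 1 else 0)
        = ((A.filter fun x => x + t ∈ I).card : ℝ) := by
      have : ∀ x ∈ I, (if x ∈ A then (1 : ℝ) else 0) * (if x + t ∈ I then 1 else 0)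
          = if x ∈ A ∧ x + t ∈ I then 1 else 0 := by
        intro x _
        by_cases ha : x ∈ A <;> by_cases hb : x + t ∈ I <;> simp [ha, hb]
      rw [Finset.sum_congr rfl this, Finset.sum_boole]
      congr 2
      ext x
      simp only [Finset.mem_filter]
      exact ⟨fun h => h.2, fun h => ⟨hA h.1, h⟩⟩
    have h2 : (A.filter fun x => ¬ (x + t ∈ I)).card ≤ t.toNat := by
      have hsub : (A.filter fun x => ¬ (x + t ∈ I)) ⊆ Finset.Icc ((N : ℤ) - t + 1) N := by
        intro x hx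
        rw [Finset.mem_filter] at hx
        have hxI := hA hx.1
        rw [Finset.mem_Icc] at hxI
        have h3 := hx.2
        rw [hI, Finset.mem_Icc] at h3
        rw [Finset.mem_Icc]
        constructor
        · by_contra hcon
          apply h3
          constructor <;> omega
        · exact hxI.2
      refine (Finset.card_le_card hsub).trans ?_
      rw [Int.card_Icc]
      apply le_of_eq
      congr 1
      ring
    have h3 := Finset.card_filter_add_card_filter_not (s := A) (fun x => x + t ∈ I)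
    have h4 : ((A.filter fun x => ¬ (x + t ∈ I)).card : ℝ) ≤ t := by
      have : ((A.filter fun x => ¬ (x + t ∈ I)).card : ℤ) ≤ t := by
        have := Int.toNat_of_nonneg ht0
        omega
      exact_mod_cast this
    have h5 : ((A.filter fun x => x + t ∈ I).card : ℝ)
        + ((A.filter fun x => ¬ (x + t ∈ I)).card : ℝ) = A.card := by
      exact_mod_cast h3
    rw [h1]
    linarith
  have hA2 : (A.card : ℝ) - t ≤ ∑ x ∈ I, (if x + t ∈ A then (1 : ℝ) else 0) := by
    have h1 : ∑ x ∈ I, (if x + t ∈ A then (1 : ℝ) else 0)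
        = ((A.filter fun a => a - t ∈ I).card : ℝ) := by
      rw [Finset.sum_boole]
      congr 1
      apply Finset.card_bij (fun x _ => x + t)
      · intro x hx
        rw [Finset.mem_filter] at hx ⊢
        refine ⟨hx.2, ?_⟩
        rw [add_sub_cancel_right]
        exact hx.1
      · intro x _ y _ hxy
        exact add_right_cancel hxy
      · intro a ha
        rw [Finset.mem_filter] at ha
        refine ⟨a - t, ?_, by ring⟩
        rw [Finset.mem_filter]
        refine ⟨ha.2, ?_⟩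
        rw [sub_add_cancel]
        exact ha.1
    have h2 : (A.filter fun x => ¬ (x - t ∈ I)).card ≤ t.toNat := by
      have hsub : (A.filter fun x => ¬ (x - t ∈ I)) ⊆ Finset.Icc (1 : ℤ) t := by
        intro x hx
        rw [Finset.mem_filter] at hx
        have hxI := hA hx.1
        rw [Finset.mem_Icc] at hxI
        have h3 := hx.2
        rw [hI, Finset.mem_Icc] at h3
        rw [Finset.mem_Icc]
        constructor
        · exact hxI.1
        · by_contra hcon
          apply h3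
          constructor <;> omega
      refine (Finset.card_le_card hsub).trans ?_
      rw [Int.card_Icc]
      apply le_of_eq
      congr 1
      ring
    have h3 := Finset.card_filter_add_card_filter_not (s := A) (fun x => x - t ∈ I)
    have h4 : ((A.filter fun x => ¬ (x - t ∈ I)).card : ℝ) ≤ t := by
      have : ((A.filter fun x => ¬ (x - t ∈ I)).card : ℤ) ≤ t := by
        have := Int.toNat_of_nonneg ht0
        omega
      exact_mod_cast this
    have h5 : ((A.filter fun x => x - t ∈ I).card : ℝ)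
        + ((A.filter fun x => ¬ (x - t ∈ I)).card : ℝ) = A.card := by
      exact_mod_cast h3
    rw [h1]
    linarith
  have hI3 : ∑ x ∈ I, (if x + t ∈ I then (1 : ℝ) else 0) ≤ N := by
    rw [← hcI, Finset.sum_boole]
    exact_mod_cast Finset.card_filter_le _ _
  have h0 : ∑ x ∈ I, (if x ∈ A then (1 : ℝ) else 0) * (if x + t ∈ A then 1 else 0) = 0 := by
    apply Finset.sum_eq_zero
    intro x _
    by_cases hx : x ∈ A
    · rw [if_neg (hav x hx), mul_zero]
    · rw [if_neg hx, zero_mul]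
  have hexp : ∑ x ∈ I, bal N A x * bal N A (x + t)
      = ∑ x ∈ I, (if x ∈ A then (1 : ℝ) else 0) * (if x + t ∈ A then 1 else 0)
        - α * ∑ x ∈ I, (if x ∈ A then (1 : ℝ) else 0) * (if x + t ∈ I then 1 else 0)
        - α * ∑ x ∈ I, (if x + t ∈ A then (1 : ℝ) else 0)
        + α ^ 2 * ∑ x ∈ I, (if x + t ∈ I then (1 : ℝ) else 0) := by
    rw [Finset.mul_sum, Finset.mul_sum, Finset.mul_sum, ← Finset.sum_sub_distrib,
      ← Finset.sum_sub_distrib, ← Finset.sum_add_distrib]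
    apply Finset.sum_congr rfl
    intro x hx
    unfold bal
    rw [← hI, if_pos hx, hdiv]
    split_ifs <;> ring
  rw [hexp, h0]
  have k1 := mul_le_mul_of_nonneg_left hA1 hα0.le
  have k2 := mul_le_mul_of_nonneg_left hA2 hα0.le
  have k3 := mul_le_mul_of_nonneg_left hI3 (sq_nonneg α)
  have k4 := mul_le_mul_of_nonneg_left ht hα0.le
  rw [hα] at k1 k2
  have k5 : 0 ≤ α ^ 2 * N := by positivity
  nlinarith

/-- Counting lemma.

PROOF. `f = bal N A = 1_A - α 1_{[N]}`. For `t = g(n)`, `1 ≤ n ≤ M`: `0 < t ≤ α N/8` (`g` has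
positive coefficients up to its degree `≥ 1`, so it is positive and increasing on `n ≥ 1`), and
`∑_x 1_A(x) 1_A(x+t) = 0` by avoidance. Insert `1_A = α 1_{[N]} + f`:
`0 = ∑ f(x) f(x+t) + α ∑_{y ∈ (t, N]} f(y) + α ∑_{x ≤ N - t} f(x) + α² (N - t)`. As `∑ f = 0`, each
of the two middle sums is minus a sum over `t` points of `f ≤ 1`, so is `≥ -t`; hence
`∑ f(x) f(x+t) ≤ 2 α t + α² t - α² N ≤ -α² N/2`. Average over `n ≤ M` and use `correlation`:
`α² N/2 ≤ |∫ |f^|² wSum| ≤ ∫ |f^|² |wSum|`. -/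
theorem circle_lower (N : ℕ) (hN : 1 ≤ N) (A : Finset ℤ) (hA : A ⊆ Finset.Icc (1 : ℤ) N)
    (α : ℝ) (hα0 : 0 < α) (hα : (A.card : ℝ) = α * N) (g : ℤ[X]) (hdeg : 1 ≤ g.natDegree)
    (hg : ∀ j : ℕ, j ≤ g.natDegree → 0 < g.coeff j) (M : ℕ) (hM : 1 ≤ M)
    (hgM : ((g.eval (M : ℤ) : ℤ) : ℝ) ≤ α * N / 8) (hav : Avoids g A) :
    α ^ 2 * N / 2 ≤ ∫ θ in (0 : ℝ)..1, ‖fhat N (bal N A) θ‖ ^ 2 * ‖wSum g M θ‖ := by
  have hM0 : (M : ℝ) ≠ 0 := by
    have : 0 < M := hM
    exact_mod_cast this.ne'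
  have hMpos : (0 : ℝ) < M := by
    have : 0 < M := hM
    exact_mod_cast this
  -- nonnegativity and monotonicity of `g`
  have hg0 : ∀ n : ℕ, 0 ≤ g.eval (n : ℤ) := by
    intro n
    rw [Polynomial.eval_eq_sum_range]
    apply Finset.sum_nonneg
    intro j hj
    have hj' : j ≤ g.natDegree := by
      rw [Finset.mem_range] at hj
      omega
    have := hg j hj'
    positivity
  have hgmono : ∀ n : ℕ, n ≤ M → g.eval (n : ℤ) ≤ g.eval (M : ℤ) := by
    intro n hn
    rw [Polynomial.eval_eq_sum_range, Polynomial.eval_eq_sum_range]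
    apply Finset.sum_le_sum
    intro j hj
    have hj' : j ≤ g.natDegree := by
      rw [Finset.mem_range] at hj
      omega
    have h1 := (hg j hj').le
    have h2 : (n : ℤ) ^ j ≤ (M : ℤ) ^ j := by
      apply pow_le_pow_left₀ (Int.natCast_nonneg n)
      exact_mod_cast hn
    exact mul_le_mul_of_nonneg_left h2 h1
  have hcorr : ∀ n ∈ Finset.Icc 1 M,
      ∑ x ∈ Finset.Icc (1 : ℤ) N, bal N A x * bal N A (x + g.eval (n : ℤ)) ≤
        -(α ^ 2 * N / 2) := by
    intro n hn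
    rw [Finset.mem_Icc] at hn
    apply corr_le N hN A hA α hα0 hα _ (hg0 n)
    · refine le_trans ?_ hgM
      exact_mod_cast hgmono n hn.2
    · intro x hx hx2
      have := hav (x + g.eval (n : ℤ)) hx2 x hx n hn.1
      apply this
      ring
  have hsum : ∑ n ∈ Finset.Icc 1 M,
      ∑ x ∈ Finset.Icc (1 : ℤ) N, bal N A x * bal N A (x + g.eval (n : ℤ)) ≤
        M * (-(α ^ 2 * N / 2)) := by
    refine (Finset.sum_le_sum hcorr).trans ?_
    rw [Finset.sum_const, nsmul_eq_mul, Nat.card_Icc]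
    simp
  have hbal : ∀ x, x ∉ Finset.Icc (1 : ℤ) N → bal N A x = 0 := fun x hx => bal_eq_zero N A hA x hx
  have hint : ((∑ n ∈ Finset.Icc 1 M,
      ∑ x ∈ Finset.Icc (1 : ℤ) N, bal N A x * bal N A (x + g.eval (n : ℤ)) : ℝ) : ℂ)
      = M * ∫ θ in (0 : ℝ)..1, ((‖fhat N (bal N A) θ‖ ^ 2 : ℝ) : ℂ) * wSum g M θ := by
    have hcont : ∀ n : ℕ, Continuous fun θ : ℝ =>
        ((‖fhat N (bal N A) θ‖ ^ 2 : ℝ) : ℂ) * e (((g.eval (n : ℤ) : ℤ) : ℝ) * θ) := by
      intro n
      apply Continuous.mul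
      · exact Complex.continuous_ofReal.comp ((continuous_fhat N (bal N A)).norm.pow 2)
      · exact continuous_e.comp (by fun_prop)
    have h1 : ((∑ n ∈ Finset.Icc 1 M,
        ∑ x ∈ Finset.Icc (1 : ℤ) N, bal N A x * bal N A (x + g.eval (n : ℤ)) : ℝ) : ℂ)
        = ∑ n ∈ Finset.Icc 1 M, ((∑ x ∈ Finset.Icc (1 : ℤ) N,
          bal N A x * bal N A (x + g.eval (n : ℤ)) : ℝ) : ℂ) := by
      push_cast
      rfl
    have h1' : ∑ n ∈ Finset.Icc 1 M, ((∑ x ∈ Finset.Icc (1 : ℤ) N,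
          bal N A x * bal N A (x + g.eval (n : ℤ)) : ℝ) : ℂ)
        = ∑ n ∈ Finset.Icc 1 M, ∫ θ in (0 : ℝ)..1,
          ((‖fhat N (bal N A) θ‖ ^ 2 : ℝ) : ℂ) * e (((g.eval (n : ℤ) : ℤ) : ℝ) * θ) := by
      apply Finset.sum_congr rfl
      intro n _
      exact correlation N (bal N A) hbal (g.eval (n : ℤ))
    rw [h1, h1', ← intervalIntegral.integral_finset_sum, ← intervalIntegral.integral_const_mul]
    · apply intervalIntegral.integral_congr
      intro θ _
      simp only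
      unfold wSum
      rw [← Finset.mul_sum]
      have hMc : (M : ℂ) ≠ 0 := by exact_mod_cast hM0
      have h2 : ∑ n ∈ Finset.Icc 1 M, e (((g.eval (n : ℤ) : ℤ) : ℝ) * θ)
          = ∑ n ∈ Finset.Icc 1 M, e (θ * ((g.eval (n : ℤ) : ℤ) : ℝ)) := by
        apply Finset.sum_congr rfl
        intro n _
        rw [mul_comm]
      rw [h2]
      field_simp
    · intro n _
      exact (hcont n).intervalIntegrable _ _
  have hnorm : α ^ 2 * N / 2 * M ≤ ‖((∑ n ∈ Finset.Icc 1 M,
      ∑ x ∈ Finset.Icc (1 : ℤ) N, bal N A x * bal N A (x + g.eval (n : ℤ)) : ℝ) : ℂ)‖ := by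
    rw [Complex.norm_real, Real.norm_eq_abs]
    refine le_trans ?_ (neg_le_abs _)
    linarith
  rw [hint, norm_mul, Complex.norm_natCast] at hnorm
  have h3 : α ^ 2 * N / 2 ≤
      ‖∫ θ in (0 : ℝ)..1, ((‖fhat N (bal N A) θ‖ ^ 2 : ℝ) : ℂ) * wSum g M θ‖ := by
    have : α ^ 2 * N / 2 * M ≤
      ‖∫ θ in (0 : ℝ)..1, ((‖fhat N (bal N A) θ‖ ^ 2 : ℝ) : ℂ) * wSum g M θ‖ * M := by
      linarith
    exact le_of_mul_le_mul_right this hMpos
  refine h3.trans ((intervalIntegral.norm_integral_le_integral_norm zero_le_one).trans ?_)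
  apply le_of_eq
  apply intervalIntegral.integral_congr
  intro θ _
  simp only
  rw [norm_mul, Complex.norm_real, Real.norm_of_nonneg (by positivity)]

end Vale.Agent.P042.UB
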