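import Vale.Agent.Lib.P042.UB.Circle.Count
import Vale.Agent.Lib.P042.UB.Circle.Class
import Vale.Agent.Lib.P042.UB.Fejer.Bdry
import Vale.Agent.Lib.P042.UB.Rough
import Vale.Agent.Lib.P042.UB.CSumWt

set_option autoImplicit false

namespace Vale.Agent.P042.UB

open Polynomial

/-- the smoothed Fourier sum of a bounded sequence -/
noncomputable def RP_S (H : ℕ) (u : ℤ → ℝ) (φ : ℝ) : ℂ :=
  ∑' j : ℤ, ((fw H j * u j : ℝ) : ℂ) * e (-((j : ℝ) * φ))

theorem RP_norm (H : ℕ) (u : ℤ → ℝ) (φ : ℝ) (j : ℤ) :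
    ‖((fw H j * u j : ℝ) : ℂ) * e (-((j : ℝ) * φ))‖ = fw H j * |u j| := by
  rw [norm_mul, norm_e, mul_one, Complex.norm_real, Real.norm_eq_abs, abs_mul,
    abs_of_nonneg (fw_nonneg H j)]

theorem RP_summable_real (H : ℕ) (hH : 2 ≤ H) (u : ℤ → ℝ) (hu : ∀ j, |u j| ≤ 1) :
    Summable (fun j : ℤ => fw H j * |u j|) := by
  refine Summable.of_nonneg_of_le (fun j => mul_nonneg (fw_nonneg H j) (abs_nonneg _))
    (fun j => ?_) (summable_fw H (by omega))
  exact mul_le_of_le_one_right (fw_nonneg H j) (hu j)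

theorem RP_summable (H : ℕ) (hH : 2 ≤ H) (u : ℤ → ℝ) (hu : ∀ j, |u j| ≤ 1) (φ : ℝ) :
    Summable (fun j : ℤ => ((fw H j * u j : ℝ) : ℂ) * e (-((j : ℝ) * φ))) := by
  refine Summable.of_norm ?_
  refine (RP_summable_real H hH u hu).congr fun j => ?_
  rw [RP_norm]

theorem RP_norm_le (H : ℕ) (hH : 2 ≤ H) (u : ℤ → ℝ) (hu : ∀ j, |u j| ≤ 1) (φ : ℝ) :
    ‖RP_S H u φ‖ ≤ ∑' j : ℤ, fw H j * |u j| := by
  unfold RP_S
  refine (norm_tsum_le_tsum_norm ?_).trans (le_of_eq ?_)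
  · refine (RP_summable_real H hH u hu).congr fun j => ?_
    rw [RP_norm]
  · exact tsum_congr fun j => RP_norm H u φ j

theorem RP_sub (H : ℕ) (hH : 2 ≤ H) (u v : ℤ → ℝ) (hu : ∀ j, |u j| ≤ 1) (hv : ∀ j, |v j| ≤ 1)
    (φ : ℝ) : RP_S H (fun j => u j - v j) φ = RP_S H u φ - RP_S H v φ := by
  unfold RP_S
  rw [← (RP_summable H hH u hu φ).tsum_sub (RP_summable H hH v hv φ)]
  refine tsum_congr fun j => ?_
  push_cast
  ring

theorem RP_smul (H : ℕ) (c : ℝ) (u : ℤ → ℝ) (φ : ℝ) :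
    RP_S H (fun j => c * u j) φ = (c : ℂ) * RP_S H u φ := by
  unfold RP_S
  rw [← tsum_mul_left]
  refine tsum_congr fun j => ?_
  push_cast
  ring

theorem RP_one (H : ℕ) (hH : 2 ≤ H) (φ : ℝ) (hφ : 1 ≤ H * nint (-φ)) :
    RP_S H (fun _ => 1) φ = 0 := by
  have h := (hasSum_fw_e H hH (-φ)).tsum_eq
  rw [max_eq_left (by linarith)] at h
  unfold RP_S
  refine Eq.trans (tsum_congr fun j => ?_) (h.trans (by simp))
  rw [mul_one, mul_neg]

/-- distance of a nonzero reduced fraction to the integers -/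
theorem RP_nint (q a H : ℕ) (hq : 2 ≤ q) (hqH : q ≤ H) (ha : a.Coprime q) :
    1 ≤ (H : ℝ) * nint (-((a : ℝ) / q)) := by
  have hq0 : (0 : ℝ) < q := by
    have : 0 < q := by omega
    exact_mod_cast this
  have hqH' : (q : ℝ) ≤ H := by exact_mod_cast hqH
  have key : 1 / (q : ℝ) ≤ nint (-((a : ℝ) / q)) := by
    unfold nint
    set m : ℤ := round (-((a : ℝ) / q)) with hm
    have h1 : -((a : ℝ) / q) - m = -(((a : ℤ) + m * q : ℤ) : ℝ) / q := by
      push_cast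
      field_simp
      ring
    rw [h1, neg_div, abs_neg, abs_div, abs_of_pos hq0]
    refine div_le_div_of_nonneg_right ?_ hq0.le
    have h2 : ((a : ℤ) + m * q) ≠ 0 := by
      intro h0
      have h3 : (q : ℤ) ∣ (a : ℤ) := ⟨-m, by linarith⟩
      have h4 : q ∣ a := by exact_mod_cast h3
      have h5 : q ∣ Nat.gcd a q := Nat.dvd_gcd h4 dvd_rfl
      rw [Nat.Coprime] at ha
      rw [ha] at h5
      have := Nat.le_of_dvd one_pos h5
      omega
    have h3 : 1 ≤ |((a : ℤ) + m * q)| := Int.one_le_abs h2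
    exact_mod_cast h3
  calc (1 : ℝ) = q * (1 / q) := by field_simp
    _ ≤ H * nint (-((a : ℝ) / q)) := mul_le_mul hqH' key (by positivity) (by positivity)

/-- the weight of a squarefree modulus -/
theorem RP_wt (C c : ℝ) (q : ℕ) (hq : Squarefree q) :
    wt C c q = ∏ p ∈ q.primeFactors, om C c p 1 := by
  unfold wt Finsupp.prod
  rw [Nat.support_factorization]
  refine Finset.prod_congr rfl fun p hp => ?_
  have hp' := Nat.prime_of_mem_primeFactors hp
  have h0 : q ≠ 0 := hq.ne_zero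
  have h1 : q.factorization p ≤ 1 := (Nat.squarefree_iff_factorization_le_one h0).1 hq p
  have h2 : 0 < q.factorization p := hp'.factorization_pos_of_dvd h0 (Nat.dvd_of_mem_primeFactors hp)
  have h3 : q.factorization p = 1 := by omega
  rw [h3]

/-- Rough part.

PROOF. `G_x(φ) = g^_x(φ) - α b^_x(φ)`. For `x ∈ [1, N]`: `|G_x|² ≤ 2 |g^_x|² + 2 α² |b^_x|²`;
`rough_bound` for `j ↦ 1_A(x + D j)`, `J` = the primes `p ≤ K`, `p > P`, `p ∤ D`,
`w p = om C c p 1 ≤ C/√p` (`class_bound` gives the hypothesis; `wt C c q₂ = ∏ w p` for squarefree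
`q₂`) bounds the first part by `N · 2 · 3200 κ α²`; since `∑_j v(j) e(-j a/q₂) = 0`,
`b^_x(a/q₂) = -∑_{j : x + D j ∉ [1,N]} v(j) e(…)` has norm `≤ 1 - b_x ≤ 1`. For `x ∉ [1, N]`:
`|G_x| ≤ b_x ≤ 1` (`|f| ≤ 1_{[N]}`), so `|G_x|² ≤ b_x`. The number of pairs `(q₂, a)` is at most
`K²`, `wt ≤ 1`; boundary terms: `K² (2 α² + 1) 20 √(N D H) ≤ 60 K² √(N D H)`. -/
theorem rough_part {k : ℕ} (F : AuxFamily k) (C c : ℝ) (hC : 1 ≤ C) (hc : 0 < c) (n : ℕ)
    (hn : 2 ≤ n) (N : ℕ) (hN : 1 ≤ N) (A : Finset ℤ) (hA : A ⊆ Finset.Icc (1 : ℤ) N) (α : ℝ)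
    (hα1 : α ≤ 1) (hαn : (1 / 2) ^ (2 * n) ≤ α) (hα : (A.card : ℝ) = α * N) (Q L : ℕ)
    (hNI : NoIncr F A α (1 / 1000) Q L) (P K H D : ℕ) (hP : 1 ≤ P) (hP2 : P ≤ 2 ^ (2 * n))
    (hH : 2 ≤ H) (hKH : K ^ (2 * n) ≤ H) (hK : 1 ≤ K)
    (hκ : 400 * (2 * n * (C / Real.sqrt P)) ≤ 1 / 2) (hD : 1 ≤ D) (hDQ : D * K ≤ Q) (hL : 1 ≤ L)
    (hsmall : 400000 * (D * K) ^ k * L ≤ H) (hDH : D * H ≤ N) :
    ∑ q₂ ∈ (Finset.Icc 2 K).filter (fun q₂ => Squarefree q₂ ∧
        (∀ p ∈ q₂.primeFactors, P < p) ∧ q₂.Coprime D), wt C c q₂ *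
          ∑ a ∈ (Finset.range q₂).filter (fun a => a.Coprime q₂),
            ∑' x : ℤ, ‖Gs H (bal N A) D x ((a : ℝ) / q₂)‖ ^ 2 ≤
      6400 * (2 * n * (C / Real.sqrt P)) * α ^ 2 * N +
        60 * (K : ℝ) ^ 2 * Real.sqrt ((N : ℝ) * D * H) := by
  classical
  have _ := hc
  have hN0 : (0 : ℝ) < N := by
    have : 0 < N := by omega
    exact_mod_cast this
  have hα0 : 0 < α := lt_of_lt_of_le (by positivity) hαn
  have hαeq : (A.card : ℝ) / N = α := by rw [hα]; field_simp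
  have hKleH : K ≤ H := by
    refine le_trans ?_ hKH
    exact Nat.le_self_pow (by omega) K
  set R : ℝ := Real.sqrt ((N : ℝ) * D * H) with hR
  have hR0 : 0 ≤ R := Real.sqrt_nonneg _
  -- the indicator sequences
  set gA : ℤ → ℤ → ℝ := fun x j => if x + D * j ∈ A then 1 else 0 with hgA
  set gN : ℤ → ℤ → ℝ := fun x j => ind N (x + D * j) with hgN
  have hind0 : ∀ y, 0 ≤ ind N y := fun y => by unfold ind; split_ifs <;> norm_num
  have hind1 : ∀ y, ind N y ≤ 1 := fun y => by unfold ind; split_ifs <;> norm_num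
  have hgA0 : ∀ x j, 0 ≤ gA x j := fun x j => by simp only [hgA]; split_ifs <;> norm_num
  have hgA1 : ∀ x j, gA x j ≤ 1 := fun x j => by simp only [hgA]; split_ifs <;> norm_num
  have hgAabs : ∀ x j, |gA x j| ≤ 1 := fun x j => by
    rw [abs_of_nonneg (hgA0 x j)]; exact hgA1 x j
  have hgNabs : ∀ x j, |gN x j| ≤ 1 := fun x j => by
    rw [abs_of_nonneg (hind0 _)]; exact hind1 _
  have hαgN : ∀ x j, |α * gN x j| ≤ 1 := fun x j => by
    rw [abs_mul, abs_of_pos hα0]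
    exact mul_le_one₀ hα1 (abs_nonneg _) (hgNabs x j)
  have hGs : ∀ (x : ℤ) (φ : ℝ), Gs H (bal N A) D x φ = RP_S H (gA x) φ - α * RP_S H (gN x) φ := by
    intro x φ
    rw [← RP_smul, ← RP_sub H hH _ _ (hgAabs x) (hαgN x)]
    unfold Gs RP_S
    refine tsum_congr fun j => ?_
    congr 2
    simp only [hgA, hgN, bal, ind, hαeq]
    split_ifs <;> simp
  have hbal : ∀ y, |bal N A y| ≤ ind N y := by
    intro y
    unfold bal ind
    rw [hαeq]
    by_cases h1 : y ∈ A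
    · have h2 := hA h1
      rw [if_pos h1, if_pos h2, if_pos h2, abs_le]
      constructor <;> linarith
    · by_cases h2 : y ∈ Finset.Icc (1 : ℤ) N
      · rw [if_neg h1, if_pos h2, if_pos h2, abs_le]
        constructor <;> linarith
      · rw [if_neg h1, if_neg h2, if_neg h2]
        simp
  -- the weighted average `b_x`
  have hbx : ∀ x, bx H N D x = ∑' j : ℤ, fw H j * |gN x j| := by
    intro x
    unfold bx
    exact tsum_congr fun j => by rw [abs_of_nonneg (hind0 _)]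
  -- outside
  have hout : ∀ (x : ℤ) (φ : ℝ), ‖Gs H (bal N A) D x φ‖ ^ 2 ≤ bx H N D x := by
    intro x φ
    have h1 : ‖Gs H (bal N A) D x φ‖ ≤ bx H N D x := by
      have h2 : Gs H (bal N A) D x φ = RP_S H (fun j => bal N A (x + D * j)) φ := rfl
      have hb1 : ∀ j : ℤ, |bal N A (x + D * j)| ≤ 1 := fun j => (hbal _).trans (hind1 _)
      rw [h2, hbx]
      refine (RP_norm_le H hH _ hb1 φ).trans ?_
      refine (RP_summable_real H hH _ hb1).tsum_le_tsum (fun j => ?_)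
        (RP_summable_real H hH _ (hgNabs x))
      refine mul_le_mul_of_nonneg_left ?_ (fw_nonneg H j)
      rw [abs_of_nonneg (hind0 _)]
      exact hbal _
    have h3 := bx_le_one H N D hH x
    have h4 := bx_nonneg H N D x
    calc ‖Gs H (bal N A) D x φ‖ ^ 2 ≤ bx H N D x ^ 2 := pow_le_pow_left₀ (norm_nonneg _) h1 2
      _ ≤ bx H N D x := by nlinarith
  -- inside
  have hin : ∀ (x : ℤ) (φ : ℝ), 1 ≤ (H : ℝ) * nint (-φ) →
      ‖Gs H (bal N A) D x φ‖ ^ 2 ≤ 2 * ‖RP_S H (gA x) φ‖ ^ 2 + 2 * (1 - bx H N D x) := by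
    intro x φ hφ
    have h1 : ‖RP_S H (gN x) φ‖ ≤ 1 - bx H N D x := by
      have e1 : RP_S H (fun j => 1 - gN x j) φ = - RP_S H (gN x) φ := by
        rw [RP_sub H hH _ _ (fun _ => by simp) (hgNabs x), RP_one H hH φ hφ, zero_sub]
      have hb1 : ∀ j : ℤ, |1 - gN x j| ≤ 1 := fun j => by
        rw [abs_of_nonneg (sub_nonneg.2 (hind1 _))]
        have := hind0 (x + D * j)
        exact sub_le_self _ this
      rw [← norm_neg, ← e1]
      refine (RP_norm_le H hH _ hb1 φ).trans (le_of_eq ?_)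
      have e2 : ∀ j : ℤ, fw H j * |1 - gN x j| = fw H j - fw H j * |gN x j| := by
        intro j
        rw [abs_of_nonneg (sub_nonneg.2 (hind1 _)), abs_of_nonneg (hind0 _)]
        ring
      rw [tsum_congr e2, (summable_fw H (by omega)).tsum_sub (RP_summable_real H hH _ (hgNabs x)),
        tsum_fw H hH, hbx]
    have h3 := bx_le_one H N D hH x
    have h4 := bx_nonneg H N D x
    have h5 : ‖(α : ℂ) * RP_S H (gN x) φ‖ ^ 2 ≤ 1 - bx H N D x := by
      rw [norm_mul, Complex.norm_real, Real.norm_eq_abs, abs_of_pos hα0]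
      have h6 : α * ‖RP_S H (gN x) φ‖ ≤ 1 - bx H N D x := by
        calc α * ‖RP_S H (gN x) φ‖ ≤ 1 * ‖RP_S H (gN x) φ‖ :=
              mul_le_mul_of_nonneg_right hα1 (norm_nonneg _)
          _ ≤ _ := by rw [one_mul]; exact h1
      calc (α * ‖RP_S H (gN x) φ‖) ^ 2 ≤ (1 - bx H N D x) ^ 2 :=
            pow_le_pow_left₀ (mul_nonneg hα0.le (norm_nonneg _)) h6 2
        _ ≤ 1 - bx H N D x := by nlinarith
    rw [hGs]
    have h7 : ‖RP_S H (gA x) φ - α * RP_S H (gN x) φ‖ ≤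
        ‖RP_S H (gA x) φ‖ + ‖(α : ℂ) * RP_S H (gN x) φ‖ := norm_sub_le _ _
    have h8 := pow_le_pow_left₀ (norm_nonneg _) h7 2
    nlinarith [sq_nonneg (‖RP_S H (gA x) φ‖ - ‖(α : ℂ) * RP_S H (gN x) φ‖)]
  -- the sum over `x`
  have hbal0 := bal_eq_zero N A hA
  obtain ⟨hsout, htout⟩ := sum_bx_outside H N D hH hD hDH
  have hsin := sum_one_sub_bx H N D hH hD hDH
  have hx : ∀ φ : ℝ, 1 ≤ (H : ℝ) * nint (-φ) → ∑' x : ℤ, ‖Gs H (bal N A) D x φ‖ ^ 2 ≤
      2 * (∑ x ∈ Finset.Icc (1 : ℤ) N, ‖RP_S H (gA x) φ‖ ^ 2) + 60 * R := by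
    intro φ hφ
    have hs1 : Summable (fun x : ℤ => ‖Gs H (bal N A) D x φ‖ ^ 2) :=
      (hasSum_Gs_sq N (bal N A) hbal0 H D hH hD φ).summable
    set F1 : ℤ → ℝ := fun x => if x ∈ Finset.Icc (1 : ℤ) N then
      2 * ‖RP_S H (gA x) φ‖ ^ 2 + 2 * (1 - bx H N D x) else 0 with hF1
    have hF1s : Summable F1 := summable_of_ne_finset_zero (s := Finset.Icc (1 : ℤ) N) (by
      intro b hb
      simp only [hF1, if_neg hb])
    have hF1t : ∑' x, F1 x = ∑ x ∈ Finset.Icc (1 : ℤ) N,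
        (2 * ‖RP_S H (gA x) φ‖ ^ 2 + 2 * (1 - bx H N D x)) := by
      rw [tsum_eq_sum (s := Finset.Icc (1 : ℤ) N) (by
        intro b hb
        simp only [hF1, if_neg hb])]
      refine Finset.sum_congr rfl fun x hx => ?_
      simp only [hF1, if_pos hx]
    have hle : ∀ x : ℤ, ‖Gs H (bal N A) D x φ‖ ^ 2 ≤
        F1 x + (if x ∈ Finset.Icc (1 : ℤ) N then 0 else bx H N D x) := by
      intro x
      by_cases hx : x ∈ Finset.Icc (1 : ℤ) N
      · simp only [hF1, if_pos hx, add_zero]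
        exact hin x φ hφ
      · simp only [hF1, if_neg hx, zero_add]
        exact hout x φ
    refine (hs1.tsum_le_tsum hle (hF1s.add hsout)).trans ?_
    rw [hF1s.tsum_add hsout, hF1t, Finset.sum_add_distrib, ← Finset.mul_sum, ← Finset.mul_sum]
    linarith
  -- the main part for one `x`
  set J : Finset ℕ := (Finset.Icc 1 K).filter (fun p => p.Prime ∧ P < p ∧ ¬ p ∣ D) with hJ
  set S₁ : Finset ℕ := (Finset.Icc 2 K).filter (fun q₂ => Squarefree q₂ ∧
        (∀ p ∈ q₂.primeFactors, P < p) ∧ q₂.Coprime D) with hS₁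
  have hS₁J : S₁ = (Finset.Icc 2 K).filter (fun q => Squarefree q ∧ q.primeFactors ⊆ J) := by
    rw [hS₁]
    refine Finset.filter_congr fun q hq => ?_
    rw [Finset.mem_Icc] at hq
    have hq0 : q ≠ 0 := by omega
    refine and_congr_right fun hsq => ?_
    constructor
    · rintro ⟨h1, h2⟩ p hp
      have hp' := Nat.prime_of_mem_primeFactors hp
      have hpq := Nat.dvd_of_mem_primeFactors hp
      refine Finset.mem_filter.2 ⟨Finset.mem_Icc.2 ⟨hp'.one_lt.le,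
        (Nat.le_of_dvd (by omega) hpq).trans hq.2⟩, hp', h1 p hp, fun hpD => ?_⟩
      have := Nat.dvd_gcd hpq hpD
      rw [h2] at this
      exact hp'.one_lt.ne' (Nat.dvd_one.1 this)
    · intro h
      refine ⟨fun p hp => (Finset.mem_filter.1 (h hp)).2.2.1, ?_⟩
      refine Nat.Coprime.symm ?_
      refine Nat.coprime_of_dvd fun p hp hpD hpq => ?_
      exact (Finset.mem_filter.1 (h (Nat.mem_primeFactors.2 ⟨hp, hpq, hq0⟩))).2.2.2 hpD
  have hmain : ∀ x : ℤ, ∑ q₂ ∈ S₁, wt C c q₂ *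
      ∑ a ∈ (Finset.range q₂).filter (fun a => a.Coprime q₂),
        ‖RP_S H (gA x) ((a : ℝ) / q₂)‖ ^ 2 ≤ 3200 * (2 * n * (C / Real.sqrt P)) * α ^ 2 := by
    intro x
    have hexp : Real.exp (-(2 * n : ℝ)) ≤ α := by
      refine le_trans ?_ hαn
      have h1 : Real.exp (-(2 * n : ℝ)) = Real.exp (-1) ^ (2 * n) := by
        rw [← Real.exp_nat_mul]
        congr 1
        push_cast
        ring
      rw [h1]
      refine pow_le_pow_left₀ (Real.exp_pos _).le ?_ _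
      rw [Real.exp_neg, one_div]
      refine inv_anti₀ (by norm_num) ?_
      have := Real.add_one_le_exp (1 : ℝ)
      linarith
    have h := rough_bound n hn P K H hP hP2 hH hKH α hα0 hα1 hexp C (by linarith)
      (fun p => om C c p 1) (fun p => om_nonneg C c (by linarith) p 1)
      (fun p => by
        unfold om
        refine (min_le_right _ _).trans ((min_le_right _ _).trans ?_)
        rw [if_pos rfl]) hκ (gA x) (hgA0 x) (hgA1 x) J
      (fun p hp => ⟨(Finset.mem_filter.1 hp).2.1, (Finset.mem_filter.1 hp).2.2.1⟩)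
      (by
        intro q hq1 hqK _ _ b
        have hDq : D * q ≤ Q := (Nat.mul_le_mul_left D hqK).trans hDQ
        have hsm : 400000 * (D * q) ^ k * L ≤ H := by
          refine le_trans ?_ hsmall
          refine Nat.mul_le_mul_right _ (Nat.mul_le_mul_left _ ?_)
          exact Nat.pow_le_pow_left (Nat.mul_le_mul_left D hqK) k
        have h1 := class_bound F A α hα0 Q L hNI H D q hH hD hq1 (hqK.trans hKleH) hDq hL hsm x b
        refine h1.trans ?_
        nlinarith)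
    rw [hS₁J]
    refine le_trans (le_of_eq ?_) h
    refine Finset.sum_congr rfl fun q hq => ?_
    rw [RP_wt C c q (Finset.mem_filter.1 hq).2.1]
    rfl
  -- conclusion
  have hpair : ∀ q₂ ∈ S₁, wt C c q₂ * ∑ a ∈ (Finset.range q₂).filter (fun a => a.Coprime q₂),
        ∑' x : ℤ, ‖Gs H (bal N A) D x ((a : ℝ) / q₂)‖ ^ 2 ≤
      2 * (∑ x ∈ Finset.Icc (1 : ℤ) N, wt C c q₂ *
        ∑ a ∈ (Finset.range q₂).filter (fun a => a.Coprime q₂),
          ‖RP_S H (gA x) ((a : ℝ) / q₂)‖ ^ 2) + 60 * K * R := by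
    intro q₂ hq₂
    have hq₂' := Finset.mem_Icc.1 (Finset.mem_filter.1 hq₂).1
    have hw0 := wt_nonneg C c (by linarith) q₂
    have hw1 := wt_le_one C c (by linarith) q₂
    have h1 : ∑ a ∈ (Finset.range q₂).filter (fun a => a.Coprime q₂),
        ∑' x : ℤ, ‖Gs H (bal N A) D x ((a : ℝ) / q₂)‖ ^ 2 ≤
        ∑ a ∈ (Finset.range q₂).filter (fun a => a.Coprime q₂),
          (2 * (∑ x ∈ Finset.Icc (1 : ℤ) N, ‖RP_S H (gA x) ((a : ℝ) / q₂)‖ ^ 2) + 60 * R) := by
      refine Finset.sum_le_sum fun a ha => hx _ ?_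
      exact RP_nint q₂ a H hq₂'.1 (hq₂'.2.trans hKleH) (Finset.mem_filter.1 ha).2
    have h2 : ((((Finset.range q₂).filter (fun a => a.Coprime q₂)).card : ℕ) : ℝ) ≤ K := by
      have h3 := Finset.card_filter_le (Finset.range q₂) (fun a => a.Coprime q₂)
      rw [Finset.card_range] at h3
      exact_mod_cast h3.trans hq₂'.2
    rw [Finset.sum_add_distrib, Finset.sum_const, nsmul_eq_mul, ← Finset.mul_sum,
      Finset.sum_comm] at h1
    have h4 := mul_le_mul_of_nonneg_left h1 hw0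
    refine h4.trans ?_
    rw [mul_add, ← Finset.mul_sum]
    have h5 : wt C c q₂ * (((((Finset.range q₂).filter (fun a => a.Coprime q₂)).card : ℕ) : ℝ) *
        (60 * R)) ≤ 1 * (K * (60 * R)) := by
      have h60 : 0 ≤ 60 * R := by linarith
      exact mul_le_mul hw1 (mul_le_mul_of_nonneg_right h2 h60)
        (mul_nonneg (Nat.cast_nonneg _) h60) zero_le_one
    linarith
  refine (Finset.sum_le_sum hpair).trans ?_
  rw [Finset.sum_add_distrib, ← Finset.mul_sum, Finset.sum_comm, Finset.sum_const, nsmul_eq_mul]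
  have h1 : ∑ x ∈ Finset.Icc (1 : ℤ) N, ∑ q₂ ∈ S₁, wt C c q₂ *
      ∑ a ∈ (Finset.range q₂).filter (fun a => a.Coprime q₂),
        ‖RP_S H (gA x) ((a : ℝ) / q₂)‖ ^ 2 ≤
      N * (3200 * (2 * n * (C / Real.sqrt P)) * α ^ 2) := by
    refine (Finset.sum_le_sum fun x _ => hmain x).trans (le_of_eq ?_)
    rw [Finset.sum_const, nsmul_eq_mul]
    simp
  have h2 : ((S₁.card : ℕ) : ℝ) ≤ K := by
    have h3 := Finset.card_filter_le (Finset.Icc 2 K) (fun q₂ => Squarefree q₂ ∧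
        (∀ p ∈ q₂.primeFactors, P < p) ∧ q₂.Coprime D)
    rw [Nat.card_Icc] at h3
    have h4 : S₁.card ≤ K := by
      refine h3.trans ?_
      omega
    exact_mod_cast h4
  have h3 : (S₁.card : ℝ) * (60 * K * R) ≤ K * (60 * K * R) :=
    mul_le_mul_of_nonneg_right h2 (by positivity)
  nlinarith

end Vale.Agent.P042.UB
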