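import Vale.Agent.Lib.P042.UB.Circle.Count
import Vale.Agent.Lib.P042.UB.Circle.Class
import Vale.Agent.Lib.P042.UB.Fejer.Bdry

set_option autoImplicit false

namespace Vale.Agent.P042.UB

open Polynomial

namespace SmoothAux

/-- Real version of `Gs H f D x 0`. -/
noncomputable def Gr (H : ℕ) (f : ℤ → ℝ) (D : ℕ) (x : ℤ) : ℝ :=
  ∑' j : ℤ, fw H j * f (x + D * j)

theorem norm_Gs_sq (H : ℕ) (f : ℤ → ℝ) (D : ℕ) (x : ℤ) :
    ‖Gs H f D x 0‖ ^ 2 = Gr H f D x ^ 2 := by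
  have h : Gs H f D x 0 = ((Gr H f D x : ℝ) : ℂ) := by
    unfold Gs Gr
    rw [Complex.ofReal_tsum]
    refine tsum_congr fun j => ?_
    rw [mul_zero, neg_zero, e_zero, mul_one]
  rw [h, Complex.norm_real, Real.norm_eq_abs, sq_abs]

theorem summable_fw_mul1 (H : ℕ) (hH : 1 ≤ H) (g : ℤ → ℝ) (hg : ∀ j, |g j| ≤ 1) :
    Summable (fun j => fw H j * g j) := by
  refine Summable.of_norm_bounded (summable_fw H hH) fun j => ?_
  rw [Real.norm_eq_abs, abs_mul, abs_of_nonneg (fw_nonneg H j)]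
  exact mul_le_of_le_one_right (fw_nonneg H j) (hg j)

theorem summable_prod' (N : ℕ) (f : ℤ → ℝ) (hf : ∀ x, x ∉ Finset.Icc (1 : ℤ) N → f x = 0)
    (H D : ℕ) (hH : 1 ≤ H) :
    Summable (fun p : ℤ × ℤ => fw H p.1 * f (p.2 + D * p.1)) := by
  rw [← summable_abs_iff, summable_prod_of_nonneg (fun _ => abs_nonneg _)]
  have hfs : Summable (fun x => |f x|) :=
    summable_of_ne_finset_zero (s := Finset.Icc (1 : ℤ) N) (fun x hx => by rw [hf x hx, abs_zero])
  have hshift : ∀ j : ℤ, Summable (fun x => |f (x + D * j)|) := fun j =>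
    (Equiv.addRight ((D : ℤ) * j)).summable_iff.2 hfs
  have ht : ∀ j : ℤ, ∑' x, |f (x + D * j)| = ∑' x, |f x| := fun j =>
    (Equiv.addRight ((D : ℤ) * j)).tsum_eq (fun x => |f x|)
  constructor
  · intro j
    simp only [abs_mul]
    exact (hshift j).mul_left _
  · simp only [abs_mul, tsum_mul_left, ht]
    exact ((summable_fw H hH).abs).mul_right _

theorem summable_Gr (N : ℕ) (f : ℤ → ℝ) (hf : ∀ x, x ∉ Finset.Icc (1 : ℤ) N → f x = 0)
    (H D : ℕ) (hH : 1 ≤ H) : Summable (Gr H f D) :=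
  ((summable_prod' N f hf H D hH).prod_symm).prod

theorem tsum_Gr_eq_zero (N : ℕ) (f : ℤ → ℝ) (hf : ∀ x, x ∉ Finset.Icc (1 : ℤ) N → f x = 0)
    (hf0 : ∑ x ∈ Finset.Icc (1 : ℤ) N, f x = 0)
    (H D : ℕ) (hH : 1 ≤ H) : ∑' x, Gr H f D x = 0 := by
  have S := summable_prod' N f hf H D hH
  have h1 : ∑' x : ℤ, ∑' j : ℤ, fw H j * f (x + D * j) =
      ∑' j : ℤ, ∑' x : ℤ, fw H j * f (x + D * j) :=
    Summable.tsum_comm (f := fun j x : ℤ => fw H j * f (x + D * j)) S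
  have h2 : ∀ j : ℤ, ∑' x : ℤ, fw H j * f (x + D * j) = 0 := by
    intro j
    rw [tsum_mul_left]
    have h3 : ∑' x : ℤ, f (x + D * j) = ∑' x, f x :=
      (Equiv.addRight ((D : ℤ) * j)).tsum_eq f
    rw [h3, tsum_eq_sum (s := Finset.Icc (1 : ℤ) N) (fun x hx => hf x hx), hf0, mul_zero]
  unfold Gr
  rw [h1]
  simp only [h2, tsum_zero]

end SmoothAux

open SmoothAux in
/-- Smooth part.

PROOF. `G_x = Gs H (bal N A) D x 0 = g_x - α b_x`, real, with `g_x = ∑_j v(j) 1_A(x + D j)`,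
`0 ≤ g_x ≤ (1 + c₁) α`, `c₁ = 1/800` (`class_bound`, `q = 1`), and `b_x = bx H N D x ∈ [0, 1]`.
`∑_x G_x = ∑_j v(j) ∑_x f(x + D j) = 0`. For `x ∈ [1, N]`: `G_x ≤ c₁ α + α (1 - b_x)`; for
`x ∉ [1, N]`: `G_x ≤ g_x ≤ b_x`. So `∑ G_x^+ ≤ c₁ α N + 40 √(N D H)` (`sum_one_sub_bx`,
`sum_bx_outside`), `∑ |G_x| = 2 ∑ G_x^+`, `|G_x| ≤ (1 + c₁) α`, so
`∑ |G_x|² ≤ 2 (1 + c₁) α (c₁ α N + 40 √(NDH)) ≤ α² N/200`. -/
theorem smooth_part {k : ℕ} (F : AuxFamily k) (N : ℕ) (hN : 1 ≤ N) (A : Finset ℤ)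
    (hA : A ⊆ Finset.Icc (1 : ℤ) N) (α : ℝ) (hα0 : 0 < α) (hα1 : α ≤ 1)
    (hα : (A.card : ℝ) = α * N) (Q L : ℕ) (hNI : NoIncr F A α (1 / 1000) Q L) (H D : ℕ)
    (hH : 2 ≤ H) (hD : 1 ≤ D) (hDQ : D ≤ Q) (hL : 1 ≤ L) (hsmall : 400000 * D ^ k * L ≤ H)
    (hDH : D * H ≤ N) (hbd : 40 * Real.sqrt ((N : ℝ) * D * H) ≤ α * N / 10000) :
    ∑' x : ℤ, ‖Gs H (bal N A) D x 0‖ ^ 2 ≤ α ^ 2 * N / 200 := by
  have hN0 : (0 : ℝ) < N := by exact_mod_cast hN
  have hH1 : 1 ≤ H := by omega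
  have hAN : (A.card : ℝ) / N = α := by
    rw [hα]
    field_simp
  set f : ℤ → ℝ := bal N A with hf
  have hfdef : ∀ x, f x = (if x ∈ A then (1 : ℝ) else 0) - α * ind N x := by
    intro x
    rw [hf]
    unfold bal ind
    rw [hAN]
    split_ifs <;> ring
  have hf0 : ∀ x, x ∉ Finset.Icc (1 : ℤ) N → f x = 0 := fun x hx => bal_eq_zero N A hA x hx
  have hind01 : ∀ x, 0 ≤ ind N x ∧ ind N x ≤ 1 := by
    intro x
    unfold ind
    split_ifs <;> norm_num
  have hA01 : ∀ x : ℤ, 0 ≤ (if x ∈ A then (1 : ℝ) else 0) ∧ (if x ∈ A then (1 : ℝ) else 0) ≤ 1 := by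
    intro x
    split_ifs <;> norm_num
  have hAind : ∀ x : ℤ, (if x ∈ A then (1 : ℝ) else 0) ≤ ind N x := by
    intro x
    unfold ind
    by_cases h : x ∈ A
    · rw [if_pos h, if_pos (hA h)]
    · rw [if_neg h]
      split_ifs <;> norm_num
  have hsum0 : ∑ x ∈ Finset.Icc (1 : ℤ) N, f x = 0 := by
    simp only [hfdef]
    rw [Finset.sum_sub_distrib, ← Finset.mul_sum]
    have h1 : ∑ x ∈ Finset.Icc (1 : ℤ) N, (if x ∈ A then (1 : ℝ) else 0) = A.card := by
      rw [Finset.sum_ite_mem, Finset.inter_eq_right.2 hA]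
      simp
    have h2 : ∑ x ∈ Finset.Icc (1 : ℤ) N, ind N x = N := by
      unfold ind
      rw [Finset.sum_congr rfl (fun x hx => if_pos hx)]
      simp
    rw [h1, h2, hα, sub_self]
  -- the two parts
  set g : ℤ → ℝ := fun x => ∑' j : ℤ, fw H j * (if x + D * j ∈ A then 1 else 0) with hg
  have hsA : ∀ x : ℤ, Summable (fun j : ℤ => fw H j * (if x + D * j ∈ A then (1 : ℝ) else 0)) :=
    fun x => summable_fw_mul1 H hH1 _ (fun j => by
      rw [abs_of_nonneg (hA01 _).1]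
      exact (hA01 _).2)
  have hsI : ∀ x : ℤ, Summable (fun j : ℤ => fw H j * ind N (x + D * j)) :=
    fun x => summable_fw_mul1 H hH1 _ (fun j => by
      rw [abs_of_nonneg (hind01 _).1]
      exact (hind01 _).2)
  have hG : ∀ x, Gr H f D x = g x - α * bx H N D x := by
    intro x
    unfold Gr bx
    rw [hg, ← tsum_mul_left, ← Summable.tsum_sub (hsA x) ((hsI x).mul_left α)]
    refine tsum_congr fun j => ?_
    rw [hfdef]
    ring
  have hg0 : ∀ x, 0 ≤ g x := fun x => tsum_nonneg fun j => mul_nonneg (fw_nonneg H j) (hA01 _).1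
  have hgb : ∀ x, g x ≤ bx H N D x := by
    intro x
    exact Summable.tsum_le_tsum (fun j => mul_le_mul_of_nonneg_left (hAind _) (fw_nonneg H j))
      (hsA x) (hsI x)
  have hg1 : ∀ x, g x ≤ (1 + 1 / 800) * α := by
    intro x
    have h := class_bound F A α hα0 Q L hNI H D 1 hH hD le_rfl hH1 (by omega) hL
      (by simpa using hsmall) x 0
    have h1 : ∀ j : ℤ, (1 : ℤ) ∣ j - 0 := fun j => one_dvd _
    simp only [Nat.cast_one, h1, if_true, one_mul] at h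
    exact h
  have hb0 : ∀ x, 0 ≤ bx H N D x := fun x => bx_nonneg H N D x
  have hb1 : ∀ x, bx H N D x ≤ 1 := fun x => bx_le_one H N D hH x
  have habs : ∀ x, |Gr H f D x| ≤ (1 + 1 / 800) * α := by
    intro x
    rw [hG, abs_le]
    have := hg0 x
    have := hg1 x
    have := hb0 x
    have := hb1 x
    constructor
    · nlinarith
    · nlinarith
  -- sums
  have hsG : Summable (Gr H f D) := summable_Gr N f hf0 H D hH1
  have hsGa : Summable (fun x => |Gr H f D x|) := hsG.abs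
  have hG0 : ∑' x, Gr H f D x = 0 := tsum_Gr_eq_zero N f hf0 hsum0 H D hH1
  obtain ⟨hout1, hout2⟩ := sum_bx_outside H N D hH hD hDH
  have hin := sum_one_sub_bx H N D hH hD hDH
  -- a majorant of the positive part
  set m₁ : ℤ → ℝ := fun x => if x ∈ Finset.Icc (1 : ℤ) N then α / 800 + α * (1 - bx H N D x) else 0
    with hm₁
  set m₂ : ℤ → ℝ := fun x => if x ∈ Finset.Icc (1 : ℤ) N then 0 else bx H N D x with hm₂
  have hm₁s : Summable m₁ := summable_of_ne_finset_zero (s := Finset.Icc (1 : ℤ) N)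
    (fun x hx => by rw [hm₁]; exact if_neg hx)
  have hm₁t : ∑' x, m₁ x = ∑ x ∈ Finset.Icc (1 : ℤ) N, (α / 800 + α * (1 - bx H N D x)) := by
    rw [tsum_eq_sum (s := Finset.Icc (1 : ℤ) N) (fun x hx => by rw [hm₁]; exact if_neg hx)]
    exact Finset.sum_congr rfl fun x hx => by rw [hm₁]; exact if_pos hx
  have hpt : ∀ x, |Gr H f D x| ≤ 2 * (m₁ x + m₂ x) - Gr H f D x := by
    intro x
    have h1 := hg0 x
    have h2 := hg1 x
    have h3 := hb0 x
    have h4 := hb1 x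
    have h5 := hgb x
    have hmain : Gr H f D x ≤ m₁ x + m₂ x ∧ 0 ≤ m₁ x + m₂ x := by
      rw [hG, hm₁, hm₂]
      beta_reduce
      by_cases hx : x ∈ Finset.Icc (1 : ℤ) N
      · rw [if_pos hx, if_pos hx]
        constructor
        · nlinarith
        · have : 0 ≤ α * (1 - bx H N D x) := mul_nonneg hα0.le (by linarith)
          positivity
      · rw [if_neg hx, if_neg hx]
        constructor
        · have : 0 ≤ α * bx H N D x := mul_nonneg hα0.le h3
          linarith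
        · linarith
    rcases abs_cases (Gr H f D x) with h | h
    · rw [h.1]
      linarith [hmain.1, hmain.2]
    · rw [h.1]
      linarith [hmain.1, hmain.2]
  have hsum : ∑' x, |Gr H f D x| ≤ 2 * (α * N / 800 + α * N / 10000) := by
    have h1 : ∑' x, |Gr H f D x| ≤ ∑' x, (2 * (m₁ x + m₂ x) - Gr H f D x) :=
      Summable.tsum_le_tsum hpt hsGa (((hm₁s.add hout1).mul_left 2).sub hsG)
    rw [Summable.tsum_sub ((hm₁s.add hout1).mul_left 2) hsG, hG0, sub_zero, tsum_mul_left,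
      Summable.tsum_add hm₁s hout1, hm₁t, Finset.sum_add_distrib, ← Finset.mul_sum] at h1
    have h2 : ∑ x ∈ Finset.Icc (1 : ℤ) N, α / 800 = α * N / 800 := by
      simp
      ring
    rw [h2] at h1
    have h3 : α * ∑ x ∈ Finset.Icc (1 : ℤ) N, (1 - bx H N D x) ≤
        α * (20 * Real.sqrt ((N : ℝ) * D * H)) := mul_le_mul_of_nonneg_left hin hα0.le
    have h4 : 0 ≤ Real.sqrt ((N : ℝ) * D * H) := Real.sqrt_nonneg _
    have h5 : α * (20 * Real.sqrt ((N : ℝ) * D * H)) ≤ 20 * Real.sqrt ((N : ℝ) * D * H) := by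
      nlinarith
    have h6 : ∑' x, m₂ x ≤ 20 * Real.sqrt ((N : ℝ) * D * H) := hout2
    linarith
  calc ∑' x : ℤ, ‖Gs H f D x 0‖ ^ 2 = ∑' x : ℤ, |Gr H f D x| * |Gr H f D x| := by
        refine tsum_congr fun x => ?_
        rw [norm_Gs_sq, abs_mul_abs_self, pow_two]
    _ ≤ ∑' x : ℤ, (1 + 1 / 800) * α * |Gr H f D x| := by
        have hle : ∀ x, |Gr H f D x| * |Gr H f D x| ≤ (1 + 1 / 800) * α * |Gr H f D x| :=
          fun x => mul_le_mul_of_nonneg_right (habs x) (abs_nonneg _)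
        exact Summable.tsum_le_tsum hle (Summable.of_nonneg_of_le (fun x => by positivity) hle
          (hsGa.mul_left _)) (hsGa.mul_left _)
    _ = (1 + 1 / 800) * α * ∑' x : ℤ, |Gr H f D x| := tsum_mul_left
    _ ≤ (1 + 1 / 800) * α * (2 * (α * N / 800 + α * N / 10000)) :=
        mul_le_mul_of_nonneg_left hsum (by positivity)
    _ ≤ α ^ 2 * N / 200 := by
        have : 0 < α ^ 2 * N := by positivity
        nlinarith

end Vale.Agent.P042.UB
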