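import Vale.Agent.Lib.P042.UB.Circle.Arcs
import Vale.Agent.Lib.P042.UB.Circle.Smooth
import Vale.Agent.Lib.P042.UB.Circle.RoughPart
import Vale.Agent.Lib.P042.UB.Div
import Vale.Agent.Lib.P042.UB.Combine

set_option autoImplicit false

namespace Vale.Agent.P042.UB

open Polynomial

theorem arcEnergy_nonneg (N : ℕ) (f : ℤ → ℝ) (r : ℝ) (hr : 0 ≤ r) (q : ℕ) :
    0 ≤ arcEnergy N f r q := by
  unfold arcEnergy
  refine Finset.sum_nonneg fun a _ => ?_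
  exact intervalIntegral.integral_nonneg (by linarith) fun β _ => by positivity

/-- The contribution of one divisor `D`. -/
theorem per_divisor {k : ℕ} (F : AuxFamily k) (C c : ℝ) (hC : 1 ≤ C) (hc : 0 < c) (n : ℕ)
    (hn : 2 ≤ n) (N : ℕ) (hN : 1 ≤ N) (A : Finset ℤ) (hA : A ⊆ Finset.Icc (1 : ℤ) N) (α : ℝ)
    (hα0 : 0 < α) (hα1 : α ≤ 1) (hαn : (1 / 2) ^ (2 * n) ≤ α) (hα : (A.card : ℝ) = α * N)
    (Q L : ℕ) (hNI : NoIncr F A α (1 / 1000) Q L) (P K H D : ℕ) (r : ℝ) (hP : 1 ≤ P)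
    (hP2 : P ≤ 2 ^ (2 * n)) (hH : 2 ≤ H) (hKH : K ^ (2 * n) ≤ H) (hK : 1 ≤ K)
    (hκ : 400 * (2 * n * (C / Real.sqrt P)) ≤ 1 / 2) (hD : 1 ≤ D) (hDQ : D * K ≤ Q) (hL : 1 ≤ L)
    (hsmall : 400000 * (D * K) ^ k * L ≤ H) (hDH : D * H ≤ N)
    (hbd : 40 * Real.sqrt ((N : ℝ) * D * H) ≤ α * N / 10000)
    (hr : 0 < r) (hr1 : 2 * H * D * r ≤ 1) (hr2 : 2 * r * (K : ℝ) ^ 2 < 1) :
    ∑ q₂ ∈ (Finset.Icc 1 K).filter (fun q₂ => Squarefree q₂ ∧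
        (∀ p ∈ q₂.primeFactors, P < p) ∧ q₂.Coprime D), wt C c q₂ *
          ∑ q₁ ∈ D.divisors.filter (fun q₁ => q₁ * q₂ ≤ K),
            arcEnergy N (bal N A) r (q₁ * q₂) ≤
      4 * (α ^ 2 * N / 200) + 4 * (6400 * (2 * n * (C / Real.sqrt P)) * α ^ 2 * N +
        60 * (K : ℝ) ^ 2 * Real.sqrt ((N : ℝ) * D * H)) := by
  have hf : ∀ x, x ∉ Finset.Icc (1 : ℤ) N → bal N A x = 0 := fun x hx => bal_eq_zero N A hA x hx
  -- bound each term by `energy_le`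
  have hstep : ∀ q₂ ∈ (Finset.Icc 1 K).filter (fun q₂ => Squarefree q₂ ∧
        (∀ p ∈ q₂.primeFactors, P < p) ∧ q₂.Coprime D),
      wt C c q₂ * ∑ q₁ ∈ D.divisors.filter (fun q₁ => q₁ * q₂ ≤ K),
            arcEnergy N (bal N A) r (q₁ * q₂) ≤
      4 * (wt C c q₂ * ∑ a ∈ (Finset.range q₂).filter (fun a => a.Coprime q₂),
        ∑' x : ℤ, ‖Gs H (bal N A) D x ((a : ℝ) / q₂)‖ ^ 2) := by
    intro q₂ hq₂
    rw [Finset.mem_filter, Finset.mem_Icc] at hq₂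
    have h1 := energy_le N (bal N A) hf H D K q₂ r hH hD hK hq₂.1.1 hq₂.2.2.2 hr hr1 hr2
    have h2 := wt_nonneg C c (by linarith) q₂
    calc _ ≤ wt C c q₂ * (4 * ∑ a ∈ (Finset.range q₂).filter (fun a => a.Coprime q₂),
        ∑' x : ℤ, ‖Gs H (bal N A) D x ((a : ℝ) / q₂)‖ ^ 2) := mul_le_mul_of_nonneg_left h1 h2
      _ = _ := by ring
  refine (Finset.sum_le_sum hstep).trans ?_
  rw [← Finset.mul_sum]
  -- split off `q₂ = 1`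
  have hsplit : (Finset.Icc 1 K).filter (fun q₂ => Squarefree q₂ ∧
        (∀ p ∈ q₂.primeFactors, P < p) ∧ q₂.Coprime D) =
      insert 1 ((Finset.Icc 2 K).filter (fun q₂ => Squarefree q₂ ∧
        (∀ p ∈ q₂.primeFactors, P < p) ∧ q₂.Coprime D)) := by
    ext q
    simp only [Finset.mem_filter, Finset.mem_insert, Finset.mem_Icc]
    constructor
    · rintro ⟨⟨h1, h2⟩, h3⟩
      by_cases hq : q = 1
      · exact Or.inl hq
      · exact Or.inr ⟨⟨by omega, h2⟩, h3⟩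
    · rintro (rfl | ⟨⟨h1, h2⟩, h3⟩)
      · refine ⟨⟨le_refl _, hK⟩, squarefree_one, ?_, Nat.coprime_one_left _⟩
        simp
      · exact ⟨⟨by omega, h2⟩, h3⟩
  rw [hsplit, Finset.sum_insert (by simp)]
  have hone : wt C c 1 * ∑ a ∈ (Finset.range 1).filter (fun a => a.Coprime 1),
      ∑' x : ℤ, ‖Gs H (bal N A) D x ((a : ℝ) / (1 : ℕ))‖ ^ 2 =
      ∑' x : ℤ, ‖Gs H (bal N A) D x 0‖ ^ 2 := by
    rw [wt_one, one_mul]
    have : (Finset.range 1).filter (fun a => a.Coprime 1) = {0} := by decide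
    rw [this, Finset.sum_singleton]
    simp
  rw [hone]
  have hs := smooth_part F N hN A hA α hα0 hα1 hα Q L hNI H D hH hD
    (le_trans (Nat.le_mul_of_pos_right D hK) hDQ) hL
    (le_trans (Nat.mul_le_mul_right L (Nat.mul_le_mul_left 400000
      (Nat.pow_le_pow_left (Nat.le_mul_of_pos_right D hK) k))) hsmall) hDH hbd
  have hr := rough_part F C c hC hc n hn N hN A hA α hα1 hαn hα Q L hNI P K H D hP hP2 hH hKH hK
    hκ hD hDQ hL hsmall hDH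
  linarith

theorem sq_le_two_pow (n : ℕ) (hn : 4 ≤ n) : n ^ 2 ≤ 2 ^ n := by
  induction n, hn using Nat.le_induction with
  | base => norm_num
  | succ n hn ih =>
    rw [pow_succ 2 n]
    nlinarith

theorem param_DKQ (k n C₂ CK C₀ CH D K Q : ℕ) (hk : 1 ≤ k)
    (hC₀ : C₀ = 20 + 2 * k * (C₂ + CK) + 2 * CH) (hK : K = 2 ^ (CK * (2 * n)))
    (hQ : Q = 2 ^ (C₀ * n)) (hD2 : D ≤ 2 ^ (C₂ * (2 * n))) : D * K ≤ Q := by
  have hkk : 2 * (C₂ + CK) ≤ 2 * k * (C₂ + CK) := Nat.mul_le_mul_right _ (by omega)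
  rw [hQ, hK]
  calc D * 2 ^ (CK * (2 * n)) ≤ 2 ^ (C₂ * (2 * n)) * 2 ^ (CK * (2 * n)) :=
        Nat.mul_le_mul_right _ hD2
    _ = 2 ^ (2 * (C₂ + CK) * n) := by rw [← pow_add]; congr 1; ring
    _ ≤ 2 ^ (C₀ * n) := Nat.pow_le_pow_right (by norm_num)
        (Nat.mul_le_mul_right n (by omega))

theorem param_small (k n C₂ CK C₀ CH D K H L N : ℕ) (hn : 1 ≤ n)
    (hC₀ : C₀ = 20 + 2 * k * (C₂ + CK) + 2 * CH) (hK : K = 2 ^ (CK * (2 * n)))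
    (hH : H = N / 2 ^ (CH * (2 * n))) (hLmul : L * 2 ^ (C₀ * n) ≤ N)
    (hD2 : D ≤ 2 ^ (C₂ * (2 * n))) : 400000 * (D * K) ^ k * L ≤ H := by
  rw [hH, Nat.le_div_iff_mul_le (by positivity)]
  have h1 : (D * K) ^ k ≤ 2 ^ (2 * k * (C₂ + CK) * n) := by
    calc (D * K) ^ k ≤ (2 ^ (C₂ * (2 * n)) * 2 ^ (CK * (2 * n))) ^ k := by
          apply Nat.pow_le_pow_left
          rw [hK]
          exact Nat.mul_le_mul_right _ hD2
      _ = 2 ^ (2 * k * (C₂ + CK) * n) := by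
          rw [← pow_add, ← pow_mul]; congr 1; ring
  have h2 : 400000 ≤ 2 ^ (20 * n) := by
    calc 400000 ≤ 2 ^ 20 := by norm_num
      _ ≤ 2 ^ (20 * n) := Nat.pow_le_pow_right (by norm_num) (by omega)
  calc 400000 * (D * K) ^ k * L * 2 ^ (CH * (2 * n))
      ≤ 2 ^ (20 * n) * 2 ^ (2 * k * (C₂ + CK) * n) * L * 2 ^ (CH * (2 * n)) := by
        apply Nat.mul_le_mul_right
        apply Nat.mul_le_mul_right
        exact Nat.mul_le_mul h2 h1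
    _ = L * 2 ^ (C₀ * n) := by
        rw [hC₀, show (20 + 2 * k * (C₂ + CK) + 2 * CH) * n = 20 * n +
          2 * k * (C₂ + CK) * n + CH * (2 * n) by ring, pow_add, pow_add]
        ring
    _ ≤ N := hLmul

theorem param_DH (n C₂ s CH D H N : ℕ) (hCH : CH = C₂ + 2 * s)
    (hHmul : H * 2 ^ (CH * (2 * n)) ≤ N) (hD2 : D ≤ 2 ^ (C₂ * (2 * n))) : D * H ≤ N := by
  calc D * H ≤ 2 ^ (CH * (2 * n)) * H := by
        apply Nat.mul_le_mul_right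
        exact hD2.trans (Nat.pow_le_pow_right (by norm_num)
          (Nat.mul_le_mul_right _ (by omega)))
    _ = H * 2 ^ (CH * (2 * n)) := mul_comm _ _
    _ ≤ N := hHmul

theorem param_r1 (n C₂ CK s CH D H N : ℕ) (hn : 1 ≤ n) (hs : s = 2 * CK + 3)
    (hCH : CH = C₂ + 2 * s) (hN1 : 1 ≤ N)
    (hHmul : H * 2 ^ (CH * (2 * n)) ≤ N) (hD2 : D ≤ 2 ^ (C₂ * (2 * n))) :
    2 * (H : ℝ) * D * ((2 : ℝ) ^ (CK * (2 * n)) / N) ≤ 1 := by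
  have hNR : (0 : ℝ) < N := by exact_mod_cast hN1
  have h1 : 2 * H * D * 2 ^ (CK * (2 * n)) ≤ N := by
    calc 2 * H * D * 2 ^ (CK * (2 * n)) ≤ 2 * H * 2 ^ (C₂ * (2 * n)) *
          2 ^ (CK * (2 * n)) := by
          apply Nat.mul_le_mul_right
          exact Nat.mul_le_mul_left _ hD2
      _ = H * 2 ^ (1 + C₂ * (2 * n) + CK * (2 * n)) := by
          rw [pow_add, pow_add]; ring
      _ ≤ H * 2 ^ (CH * (2 * n)) := by
          apply Nat.mul_le_mul_left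
          apply Nat.pow_le_pow_right (by norm_num)
          rw [hCH, hs]
          nlinarith
      _ ≤ N := hHmul
  rw [← mul_div_assoc, div_le_one hNR]
  exact_mod_cast h1

theorem param_sqrt (n C₂ s CH D H N : ℕ) (hCH : CH = C₂ + 2 * s) (hN1 : 1 ≤ N)
    (hHmul : H * 2 ^ (CH * (2 * n)) ≤ N) (hD2 : D ≤ 2 ^ (C₂ * (2 * n))) (Y : ℝ)
    (hY : Y = (2 : ℝ) ^ (2 * n)) :
    Real.sqrt ((N : ℝ) * D * H) ≤ N / Y ^ s := by
  have hNR : (0 : ℝ) < N := by exact_mod_cast hN1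
  have hY0 : 0 < Y := by rw [hY]; positivity
  have hDR : (D : ℝ) ≤ (2 : ℝ) ^ (C₂ * (2 * n)) := by exact_mod_cast hD2
  apply Real.sqrt_le_iff.2
  refine ⟨by positivity, ?_⟩
  have h1 : (H : ℝ) * 2 ^ (CH * (2 * n)) ≤ (N : ℝ) := by exact_mod_cast hHmul
  have h3 : (2 : ℝ) ^ (C₂ * (2 * n)) * H * (Y ^ s) ^ 2 = (H : ℝ) * 2 ^ (CH * (2 * n)) := by
    rw [hY, hCH, ← pow_mul, ← pow_mul, show (C₂ + 2 * s) * (2 * n) =
      C₂ * (2 * n) + 2 * n * s * 2 by ring, pow_add]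
    ring
  have h2 : (D : ℝ) * H * (Y ^ s) ^ 2 ≤ (N : ℝ) := by
    have h4 : (D : ℝ) * H * (Y ^ s) ^ 2 ≤ (2 : ℝ) ^ (C₂ * (2 * n)) * H * (Y ^ s) ^ 2 := by
      apply mul_le_mul_of_nonneg_right _ (by positivity)
      exact mul_le_mul_of_nonneg_right hDR (Nat.cast_nonneg _)
    linarith
  rw [div_pow, le_div_iff₀ (by positivity)]
  calc (N : ℝ) * D * H * (Y ^ s) ^ 2 = N * (D * H * (Y ^ s) ^ 2) := by ring
    _ ≤ (N : ℝ) * N := mul_le_mul_of_nonneg_left h2 hNR.le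
    _ = (N : ℝ) ^ 2 := by ring

theorem param_bd (n CK s K : ℕ) (N α Y x : ℝ) (hs : s = 2 * CK + 3)
    (hK : K = 2 ^ (CK * (2 * n))) (hN : 0 < N) (hY : Y = (2 : ℝ) ^ (2 * n))
    (hYbig : (1000000 : ℝ) ≤ Y) (hαY : 1 / Y ≤ α) (hx : x ≤ N / Y ^ s) :
    40 * x ≤ α * N / 10000 ∧ 60 * (K : ℝ) ^ 2 * x ≤ α ^ 2 * N / 10000 := by
  have hY0 : 0 < Y := by linarith
  have hKR : (K : ℝ) = (2 : ℝ) ^ (CK * (2 * n)) := by rw [hK]; push_cast; rfl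
  have hYs : Y ^ s = (K : ℝ) ^ 2 * Y ^ 3 := by
    rw [hKR, hs, hY, ← pow_mul, ← pow_mul, ← pow_mul, ← pow_add]
    congr 1
    ring
  have hKR1 : (1 : ℝ) ≤ K := by rw [hKR]; exact one_le_pow₀ (by norm_num)
  have hK0 : (0 : ℝ) < K := by linarith
  have hY3 : 0 < Y ^ 3 := by positivity
  constructor
  · have h1 : N / Y ^ s ≤ N / Y ^ 3 := by
      apply div_le_div_of_nonneg_left hN.le hY3
      rw [hYs]
      have : (1 : ℝ) ≤ (K : ℝ) ^ 2 := one_le_pow₀ hKR1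
      calc Y ^ 3 = 1 * Y ^ 3 := (one_mul _).symm
        _ ≤ (K : ℝ) ^ 2 * Y ^ 3 := mul_le_mul_of_nonneg_right this hY3.le
    have h2 : 40 * (N / Y ^ 3) ≤ (1 / Y) * N / 10000 := by
      rw [show (1 / Y) * N / 10000 = (Y ^ 2 / 10000) * (N / Y ^ 3) by field_simp]
      apply mul_le_mul_of_nonneg_right _ (by positivity)
      nlinarith
    have h3 : (1 / Y) * N / 10000 ≤ α * N / 10000 := by
      apply div_le_div_of_nonneg_right _ (by norm_num)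
      exact mul_le_mul_of_nonneg_right hαY hN.le
    linarith
  · have h1 : 60 * (K : ℝ) ^ 2 * x ≤ 60 * (K : ℝ) ^ 2 * (N / Y ^ s) :=
      mul_le_mul_of_nonneg_left hx (by positivity)
    have h2 : 60 * (K : ℝ) ^ 2 * (N / Y ^ s) = 60 * (N / Y ^ 3) := by
      rw [hYs]
      field_simp
    have h3 : 60 * (N / Y ^ 3) ≤ (1 / Y) ^ 2 * N / 10000 := by
      rw [show (1 / Y) ^ 2 * N / 10000 = (Y / 10000) * (N / Y ^ 3) by field_simp]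
      apply mul_le_mul_of_nonneg_right _ (by positivity)
      linarith
    have h4 : (1 / Y) ^ 2 * N / 10000 ≤ α ^ 2 * N / 10000 := by
      apply div_le_div_of_nonneg_right _ (by norm_num)
      apply mul_le_mul_of_nonneg_right _ hN.le
      exact pow_le_pow_left₀ (by positivity) hαY 2
    linarith

/-- The contribution of one divisor, with the parameters inserted. -/
theorem per_divisor_param {k : ℕ} (F : AuxFamily k) (C c : ℝ) (hC : 1 ≤ C) (hc : 0 < c)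
    (cp CK C₂ s CH C₀ : ℕ) (hs : s = 2 * CK + 3) (hCH : CH = C₂ + 2 * s)
    (hC₀ : C₀ = 20 + 2 * k * (C₂ + CK) + 2 * CH) (hk : 1 ≤ k) (n : ℕ)
    (hn20 : 20 ≤ n) (N : ℕ) (hN1 : 1 ≤ N) (A : Finset ℤ) (hA : A ⊆ Finset.Icc (1 : ℤ) N) (α : ℝ)
    (hα0 : 0 < α) (hα1 : α ≤ 1) (hαn : (1 / 2) ^ (2 * n) ≤ α) (hα : (A.card : ℝ) = α * N)
    (K P H Q L : ℕ) (hK : K = 2 ^ (CK * (2 * n))) (hH : H = N / 2 ^ (CH * (2 * n)))
    (hQ : Q = 2 ^ (C₀ * n)) (hHmul : H * 2 ^ (CH * (2 * n)) ≤ N)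
    (hLmul : L * 2 ^ (C₀ * n) ≤ N) (hP1 : 1 ≤ P) (hP2 : P ≤ 2 ^ (2 * n))
    (hκeq : 2 * n * (C / Real.sqrt P) = C / cp) (hκle : C / cp ≤ 1 / 2000000) (hH2 : 2 ≤ H)
    (hKH : K ^ (2 * n) ≤ H) (hK1 : 1 ≤ K) (hL1 : 1 ≤ L)
    (hr : (0 : ℝ) < (2 : ℝ) ^ (CK * (2 * n)) / N)
    (hr2 : 2 * ((2 : ℝ) ^ (CK * (2 * n)) / N) * (K : ℝ) ^ 2 < 1) (Y : ℝ)
    (hY : Y = (2 : ℝ) ^ (2 * n)) (hYbig : (1000000 : ℝ) ≤ Y) (hαY : 1 / Y ≤ α)
    (hNI : NoIncr F A α (1 / 1000) Q L) (D : ℕ) (hD1 : 1 ≤ D)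
    (hD2 : D ≤ 2 ^ (C₂ * (2 * n))) :
    ∑ q₂ ∈ (Finset.Icc 1 K).filter (fun q₂ => Squarefree q₂ ∧
        (∀ p ∈ q₂.primeFactors, P < p) ∧ q₂.Coprime D), wt C c q₂ *
          ∑ q₁ ∈ D.divisors.filter (fun q₁ => q₁ * q₂ ≤ K),
            arcEnergy N (bal N A) ((2 : ℝ) ^ (CK * (2 * n)) / N) (q₁ * q₂) ≤
      α ^ 2 * N / 25 := by
  have hNR : (0 : ℝ) < N := by exact_mod_cast hN1
  have hb := param_bd n CK s K N α Y _ hs hK hNR hY hYbig hαY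
    (param_sqrt n C₂ s CH D H N hCH hN1 hHmul hD2 Y hY)
  have h := per_divisor F C c hC hc n (by omega) N hN1 A hA α hα0 hα1 hαn hα Q L
    hNI P K H D _ hP1 hP2 hH2 hKH hK1 (by rw [hκeq]; linarith) hD1
    (param_DKQ k n C₂ CK C₀ CH D K Q hk hC₀ hK hQ hD2) hL1
    (param_small k n C₂ CK C₀ CH D K H L N (by omega) hC₀ hK hH hLmul hD2)
    (param_DH n C₂ s CH D H N hCH hHmul hD2) hb.1 hr
    (param_r1 n C₂ CK s CH D H N (by omega) hs hCH hN1 hHmul hD2) hr2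
  rw [hκeq] at h
  have hα2N : 0 < α ^ 2 * N := by positivity
  have h5 : 6400 * (C / cp) * α ^ 2 * N ≤ 6400 * (1 / 2000000) * (α ^ 2 * N) := by
    rw [show 6400 * (C / cp) * α ^ 2 * N = 6400 * (C / cp) * (α ^ 2 * N) by ring]
    apply mul_le_mul_of_nonneg_right _ hα2N.le
    linarith
  have h6 := hb.2
  linarith

theorem param_P (C CP : ℝ) (hC : 1 ≤ C) (hCP : 0 < CP) (cp CK n P K : ℕ)
    (hcp : 2000000 * C + CP * CK ≤ cp) (hn : 20 ≤ n) (hcpn : 2 * cp ≤ n)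
    (hP : P = (cp * (2 * n)) ^ 2) (hK : K = 2 ^ (CK * (2 * n))) :
    1 ≤ cp ∧ Real.sqrt P = cp * (2 * n) ∧ 2 * n * (C / Real.sqrt P) = C / cp ∧
      C / cp ≤ 1 / 2000000 ∧ 1 ≤ P ∧ P ≤ 2 ^ (2 * n) ∧ Real.log K ≤ CK * (2 * n) ∧
      CP * Real.log K ≤ P := by
  have hCPCK : (0 : ℝ) ≤ CP * CK := by positivity
  have hcp1 : 1 ≤ cp := by
    have h1 : (1 : ℝ) ≤ cp := by
      refine le_trans ?_ hcp
      linarith
    exact_mod_cast h1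
  have hsqrtP : Real.sqrt P = cp * (2 * n) := by
    rw [hP]
    push_cast
    exact Real.sqrt_sq (by positivity)
  have hn0 : 0 < n := by omega
  have hn2R : (0 : ℝ) < 2 * n := by positivity
  have hcpR : (0 : ℝ) < cp := by exact_mod_cast hcp1
  have hP2 : P ≤ 2 ^ (2 * n) := by
    rw [hP]
    calc (cp * (2 * n)) ^ 2 ≤ (n * n) ^ 2 := by
          apply Nat.pow_le_pow_left
          calc cp * (2 * n) = (2 * cp) * n := by ring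
            _ ≤ n * n := Nat.mul_le_mul_right n (by omega)
      _ = (n ^ 2) ^ 2 := by ring
      _ ≤ (2 ^ n) ^ 2 := Nat.pow_le_pow_left (sq_le_two_pow n (by omega)) 2
      _ = 2 ^ (2 * n) := by rw [← pow_mul, mul_comm]
  have hlogK : Real.log K ≤ CK * (2 * n) := by
    rw [hK]
    push_cast
    rw [Real.log_pow]
    have h1 : Real.log 2 ≤ 1 := by
      have := Real.log_two_lt_d9
      linarith
    have h2 : (0 : ℝ) ≤ ((CK * (2 * n) : ℕ) : ℝ) := Nat.cast_nonneg _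
    calc ((CK * (2 * n) : ℕ) : ℝ) * Real.log 2 ≤ ((CK * (2 * n) : ℕ) : ℝ) * 1 :=
          mul_le_mul_of_nonneg_left h1 h2
      _ = CK * (2 * n) := by push_cast; ring
  refine ⟨hcp1, hsqrtP, ?_, ?_, ?_, hP2, hlogK, ?_⟩
  · rw [hsqrtP]
    field_simp
  · rw [div_le_div_iff₀ hcpR (by norm_num)]
    linarith
  · rw [hP]
    exact Nat.one_le_pow _ _ (by positivity)
  · have h1 : CP * Real.log K ≤ CP * (CK * (2 * n)) := mul_le_mul_of_nonneg_left hlogK hCP.le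
    have h2 : CP * CK ≤ cp := by linarith
    have h3 : CP * (CK * (2 * n)) ≤ cp * (2 * n) := by
      calc CP * (CK * (2 * (n : ℝ))) = (CP * CK) * (2 * n) := by ring
        _ ≤ cp * (2 * n) := mul_le_mul_of_nonneg_right h2 hn2R.le
    have h4 : (cp : ℝ) * (2 * n) ≤ P := by
      rw [hP]
      push_cast
      have h5 : (1 : ℝ) ≤ cp * (2 * n) := by
        have h6 : (1 : ℝ) ≤ cp := by exact_mod_cast hcp1
        have h7 : (20 : ℝ) ≤ n := by exact_mod_cast hn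
        nlinarith
      nlinarith
    linarith

theorem param_D (CD : ℝ) (hCD : 0 < CD) (cp CK C₂ n D : ℕ) (x y : ℝ)
    (hC₂ : 2 * (CD * (cp + CK)) ≤ C₂) (hx : x = cp * (2 * n)) (hy : y ≤ CK * (2 * n))
    (hD1 : 1 ≤ D) (hD : Real.log D ≤ CD * (x + y)) : D ≤ 2 ^ (C₂ * (2 * n)) := by
  have hDR : (0 : ℝ) < D := by exact_mod_cast hD1
  have hn2R : (0 : ℝ) ≤ 2 * n := by positivity
  have h3 : Real.log D ≤ Real.log ((2 : ℝ) ^ (C₂ * (2 * n))) := by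
    rw [Real.log_pow]
    have h4 : CD * (x + y) ≤ CD * (cp * (2 * n) + CK * (2 * n)) := by
      apply mul_le_mul_of_nonneg_left _ hCD.le
      rw [hx]
      linarith
    have h5 : (1 : ℝ) / 2 ≤ Real.log 2 := by
      have := Real.log_two_gt_d9
      linarith
    have h6 : CD * (cp * (2 * n) + CK * (2 * n)) ≤ (C₂ * (2 * n)) * (1 / 2) := by
      have : CD * (cp * (2 * (n : ℝ)) + CK * (2 * n)) = (2 * (CD * (cp + CK))) * (2 * n) *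
        (1 / 2) := by ring
      rw [this]
      exact mul_le_mul_of_nonneg_right (mul_le_mul_of_nonneg_right hC₂ hn2R) (by norm_num)
    have h7 : ((C₂ * (2 * n) : ℕ) : ℝ) * (1 / 2) ≤ ((C₂ * (2 * n) : ℕ) : ℝ) * Real.log 2 :=
      mul_le_mul_of_nonneg_left h5 (Nat.cast_nonneg _)
    have h8 : ((C₂ * (2 * n) : ℕ) : ℝ) = C₂ * (2 * n) := by push_cast; ring
    rw [h8] at h7 ⊢
    linarith
  have h9 : (D : ℝ) ≤ (2 : ℝ) ^ (C₂ * (2 * n)) :=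
    (Real.log_le_log_iff hDR (by positivity)).1 h3
  exact_mod_cast h9

theorem param_HL (CK CH C₀ C₁ n N K H L : ℕ) (hCK : 1 ≤ CK) (hn : 1 ≤ n)
    (hC₁ : 4 * CK + 2 * CH ≤ C₁) (hC₁' : C₀ ≤ C₁) (hC₁'' : 6 * CK + 2 ≤ C₁)
    (hN2 : 2 ^ (C₁ * n ^ 2) ≤ N) (hK : K = 2 ^ (CK * (2 * n)))
    (hH : H = N / 2 ^ (CH * (2 * n))) (hL : L = N / 2 ^ (C₀ * n)) :
    1 ≤ N ∧ 2 ≤ K ∧ K ^ (2 * n) ≤ H ∧ 2 ≤ H ∧ 1 ≤ L ∧
      2 * ((2 : ℝ) ^ (CK * (2 * n)) / N) * (K : ℝ) ^ 2 < 1 := by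
  have hpow : ∀ E : ℕ, E ≤ C₁ * n ^ 2 → 2 ^ E ≤ N := fun E hE =>
    (Nat.pow_le_pow_right (by norm_num) hE).trans hN2
  have hN1 : 1 ≤ N := by simpa using hpow 0 (Nat.zero_le _)
  have hNR : (0 : ℝ) < N := by exact_mod_cast hN1
  have hnn : n ≤ n ^ 2 := Nat.le_self_pow (by norm_num) n
  have hK2 : 2 ≤ K := by
    rw [hK]
    calc 2 = 2 ^ 1 := by norm_num
      _ ≤ 2 ^ (CK * (2 * n)) := Nat.pow_le_pow_right (by norm_num) (by nlinarith)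
  have hKH : K ^ (2 * n) ≤ H := by
    rw [hH, Nat.le_div_iff_mul_le (by positivity), hK, ← pow_mul, ← pow_add]
    apply hpow
    calc CK * (2 * n) * (2 * n) + CH * (2 * n) = (4 * CK) * n ^ 2 + 2 * CH * n := by ring
      _ ≤ (4 * CK) * n ^ 2 + 2 * CH * n ^ 2 :=
          Nat.add_le_add_left (Nat.mul_le_mul_left _ hnn) _
      _ = (4 * CK + 2 * CH) * n ^ 2 := by ring
      _ ≤ C₁ * n ^ 2 := Nat.mul_le_mul_right _ (by omega)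
  have hH2 : 2 ≤ H := le_trans hK2 (le_trans (Nat.le_self_pow (by omega) K) hKH)
  have hL1 : 1 ≤ L := by
    rw [hL, Nat.le_div_iff_mul_le (by positivity), one_mul]
    exact hpow _ (Nat.mul_le_mul (by omega) hnn)
  refine ⟨hN1, hK2, hKH, hH2, hL1, ?_⟩
  have hKR : (K : ℝ) = (2 : ℝ) ^ (CK * (2 * n)) := by rw [hK]; push_cast; rfl
  rw [hKR]
  have h1 : 2 ^ (3 * (CK * (2 * n)) + 2) ≤ N := by
    apply hpow
    calc 3 * (CK * (2 * n)) + 2 ≤ (6 * CK + 2) * n := by nlinarith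
      _ ≤ C₁ * n ^ 2 := Nat.mul_le_mul (by omega) hnn
  have h2 : (2 : ℝ) ^ (3 * (CK * (2 * n)) + 2) ≤ N := by exact_mod_cast h1
  have h3 : 2 * ((2 : ℝ) ^ (CK * (2 * n)) / N) * ((2 : ℝ) ^ (CK * (2 * n))) ^ 2 =
      (2 * (2 : ℝ) ^ (3 * (CK * (2 * n)))) / N := by
    rw [show 3 * (CK * (2 * n)) = (CK * (2 * n)) + (CK * (2 * n)) * 2 by ring, pow_add, pow_mul]
    ring
  rw [h3, div_lt_one hNR]
  rw [pow_add] at h2
  have h4 : (0 : ℝ) < (2 : ℝ) ^ (3 * (CK * (2 * n))) := by positivity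
  linarith

/-- Density increment. -/
theorem increment {k : ℕ} (hk : 1 ≤ k) (F : AuxFamily k) :
    ∃ C₀ C₁ : ℕ, 1 ≤ C₀ ∧ 1 ≤ C₁ ∧ ∀ n d N : ℕ, C₁ ≤ n → 0 < d → (d * 2 ^ (n ^ 2)) ^ C₁ ≤ N →
      ∀ A : Finset ℤ, A ⊆ Finset.Icc (1 : ℤ) N → ∀ α : ℝ, (1 / 2) ^ (2 * n) ≤ α → α ≤ 1 →
      (A.card : ℝ) = α * N → Avoids (F.H d) A →
      ¬ NoIncr F A α (1 / 1000) (2 ^ (C₀ * n)) (N / 2 ^ (C₀ * n)) := by
  obtain ⟨C, c, hC, hc, hc1, hwt⟩ := cSum_le_wt hk F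
  obtain ⟨CK, CN, hCK, hCN, harcs⟩ := arcs_lower hk F C c hC hwt
  obtain ⟨CP, CD, hCP, hCD, hdiv⟩ := exists_divisor_weights C c hC hc hc1
  obtain ⟨cp, hcp⟩ : ∃ cp : ℕ, 2000000 * C + CP * CK ≤ cp := ⟨_, Nat.le_ceil _⟩
  obtain ⟨C₂, hC₂⟩ : ∃ C₂ : ℕ, 2 * (CD * (cp + CK)) ≤ C₂ := ⟨_, Nat.le_ceil _⟩
  obtain ⟨s, hs⟩ : ∃ s : ℕ, s = 2 * CK + 3 := ⟨_, rfl⟩
  obtain ⟨CH, hCH⟩ : ∃ CH : ℕ, CH = C₂ + 2 * s := ⟨_, rfl⟩
  obtain ⟨C₀, hC₀⟩ : ∃ C₀ : ℕ, C₀ = 20 + 2 * k * (C₂ + CK) + 2 * CH := ⟨_, rfl⟩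
  obtain ⟨C₁, hC₁⟩ : ∃ C₁ : ℕ, C₁ = 2 * cp + 20 + CN + 4 * CK + 2 * CH + C₀ + 6 * CK + 2 :=
    ⟨_, rfl⟩
  refine ⟨C₀, C₁, by omega, by omega, ?_⟩
  intro n d N hn hd hdN A hA α hαn hα1 hα hav hNI
  have hn20 : 20 ≤ n := by omega
  -- the size of `N`
  have hN2 : 2 ^ (C₁ * n ^ 2) ≤ N := by
    refine le_trans ?_ hdN
    rw [mul_comm C₁, pow_mul]
    exact Nat.pow_le_pow_left (Nat.le_mul_of_pos_left _ hd) _
  have hα0 : 0 < α := lt_of_lt_of_le (by positivity) hαn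
  -- parameters
  obtain ⟨K, hK⟩ : ∃ K : ℕ, K = 2 ^ (CK * (2 * n)) := ⟨_, rfl⟩
  obtain ⟨P, hP⟩ : ∃ P : ℕ, P = (cp * (2 * n)) ^ 2 := ⟨_, rfl⟩
  obtain ⟨H, hH⟩ : ∃ H : ℕ, H = N / 2 ^ (CH * (2 * n)) := ⟨_, rfl⟩
  obtain ⟨Q, hQ⟩ : ∃ Q : ℕ, Q = 2 ^ (C₀ * n) := ⟨_, rfl⟩
  obtain ⟨L, hL⟩ : ∃ L : ℕ, L = N / 2 ^ (C₀ * n) := ⟨_, rfl⟩
  obtain ⟨hcp1, hsqrtP, hκeq, hκle, hP1, hP2, hlogK, hCPK⟩ :=
    param_P C CP hC hCP cp CK n P K hcp hn20 (by omega) hP hK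
  obtain ⟨hN1, hK2, hKH, hH2, hL1, hr2⟩ := param_HL CK CH C₀ C₁ n N K H L hCK (by omega)
    (by omega) (by omega) (by omega) hN2 hK hH hL
  have hNR : (0 : ℝ) < N := by exact_mod_cast hN1
  obtain ⟨DD, ϖ, hDD1, hϖ0, hϖ1, hDD⟩ := hdiv K P hK2 hCPK
  -- facts on `H`, `L`
  have hHmul : H * 2 ^ (CH * (2 * n)) ≤ N := by rw [hH]; exact Nat.div_mul_le_self _ _
  have hLmul : L * 2 ^ (C₀ * n) ≤ N := by rw [hL]; exact Nat.div_mul_le_self _ _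
  have hr : (0 : ℝ) < (2 : ℝ) ^ (CK * (2 * n)) / N := by positivity
  obtain ⟨Y, hY⟩ : ∃ Y : ℝ, Y = (2 : ℝ) ^ (2 * n) := ⟨_, rfl⟩
  have hYbig : (1000000 : ℝ) ≤ Y := by
    rw [hY]
    calc (1000000 : ℝ) ≤ 2 ^ 40 := by norm_num
      _ ≤ 2 ^ (2 * n) := pow_le_pow_right₀ (by norm_num) (by omega)
  have hαY : 1 / Y ≤ α := by
    rw [hY, one_div, ← inv_pow]
    convert hαn using 2
    norm_num
  rw [← hL, ← hQ] at hNI
  -- the per-divisor bound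
  have hper : ∀ D ∈ DD, ∑ q₂ ∈ (Finset.Icc 1 K).filter (fun q₂ => Squarefree q₂ ∧
        (∀ p ∈ q₂.primeFactors, P < p) ∧ q₂.Coprime D), wt C c q₂ *
          ∑ q₁ ∈ D.divisors.filter (fun q₁ => q₁ * q₂ ≤ K),
            arcEnergy N (bal N A) ((2 : ℝ) ^ (CK * (2 * n)) / N) (q₁ * q₂) ≤
      α ^ 2 * N / 25 := by
    intro D hD
    have hD1 := (hDD1 D hD).1
    exact per_divisor_param F C c hC hc cp CK C₂ s CH C₀ hs hCH hC₀ hk n hn20 N hN1 A hA α hα0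
      hα1 hαn hα K P H Q L hK hH hQ hHmul hLmul hP1 hP2 hκeq hκle hH2 hKH (by omega) hL1 hr hr2
      Y hY hYbig hαY hNI D hD1
      (param_D CD hCD cp CK C₂ n D _ _ hC₂ hsqrtP hlogK hD1 (hDD1 D hD).2)
  -- conclusion
  have hcomb := combine C c (by linarith) K P DD ϖ hϖ0 (fun D hD => (hDD1 D hD).1) hDD
    (fun q => arcEnergy N (bal N A) ((2 : ℝ) ^ (CK * (2 * n)) / N) q)
    (fun q => arcEnergy_nonneg _ _ _ hr.le q)
  have hlow := harcs (2 * n) d N (by omega) hd (by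
      refine le_trans ?_ hdN
      calc (d * 2 ^ (2 * n)) ^ CN ≤ (d * 2 ^ (n ^ 2)) ^ CN := by
            apply Nat.pow_le_pow_left
            apply Nat.mul_le_mul_left
            apply Nat.pow_le_pow_right (by norm_num)
            nlinarith
        _ ≤ (d * 2 ^ (n ^ 2)) ^ C₁ := Nat.pow_le_pow_right (by positivity) (by omega))
    A hA α hαn hα1 hα hav
  have hup : ∑ D ∈ DD, ϖ D * ∑ q₂ ∈ (Finset.Icc 1 K).filter (fun q₂ => Squarefree q₂ ∧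
        (∀ p ∈ q₂.primeFactors, P < p) ∧ q₂.Coprime D), wt C c q₂ *
          ∑ q₁ ∈ D.divisors.filter (fun q₁ => q₁ * q₂ ≤ K),
            arcEnergy N (bal N A) ((2 : ℝ) ^ (CK * (2 * n)) / N) (q₁ * q₂) ≤
      α ^ 2 * N / 25 := by
    calc _ ≤ ∑ D ∈ DD, ϖ D * (α ^ 2 * N / 25) :=
          Finset.sum_le_sum fun D hD => mul_le_mul_of_nonneg_left (hper D hD) (hϖ0 D)
      _ = (∑ D ∈ DD, ϖ D) * (α ^ 2 * N / 25) := by rw [Finset.sum_mul]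
      _ ≤ 1 * (α ^ 2 * N / 25) := mul_le_mul_of_nonneg_right hϖ1 (by positivity)
      _ = _ := one_mul _
  rw [← hK] at hlow
  have hα2N : 0 < α ^ 2 * N := by positivity
  linarith

end Vale.Agent.P042.UB
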